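import Vale.Agent.P141.H103.PlaneW

/-!
# The plane step for families which are not exact outer averages

`PlaneW` needs `OutM` for both families. Here both families are arbitrary symmetric families; the
energy which pays for a shift is the sum of the distances to the next outer scale. The middle
hypothesis is stated with the exact means over two outer cells, so the defect of concavity of a
capped Gram family sits in the gain `g`.
-/

namespace Vale.Agent.P141.H389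

open Finset Matrix Vale.Agent.P141.PL Vale.Agent.P141.PL.H103 Vale.Agent.P141.H103

noncomputable section

variable {ι : Type*} [Fintype ι]

/-- square of a symmetric matrix -/
def sq (X : Matrix ι ι ℝ) : ℝ := (X * X).trace

/-- distance to the next outer scale -/
def lvV (N : ℕ) (R : ℤ) (P : ℕ → ℤ → Matrix ι ι ℝ) (a : ℕ) : ℝ :=
  (2 : ℝ) ^ a * ∑ n ∈ iv (N - (a + 1)) R,
    (sq (P a (2 * n) - P (a + 1) n) + sq (P a (2 * n + 1) - P (a + 1) n))

/-- the energy which pays for a shift, arbitrary family -/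
def SV (N k : ℕ) (R : ℤ) (P : ℕ → ℤ → Matrix ι ι ℝ) : ℝ :=
  ∑ r ∈ range (N - k), (3 / 4) ^ r * lvV N R P (k + r) + (3 / 4) ^ (N - k) * eW N R P N

theorem level_V {N k : ℕ} {R : ℤ} {P : ℕ → ℤ → Matrix ι ι ℝ} {r : ℕ} (hr : k + r < N) :
    2 ^ k * ∑' n, ((fW N k R P r n - fW N k R P (r + 1) n)
        * (fW N k R P r n - fW N k R P (r + 1) n)).trace
      = lvV N R P (k + r) := by
  have h1 : ∑' n, ((fW N k R P r n - fW N k R P (r + 1) n)
        * (fW N k R P r n - fW N k R P (r + 1) n)).trace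
      = ∑ n ∈ iv (N - k) R,
        ((P (k + r) (n / 2 ^ r) - P (k + r + 1) (n / 2 ^ r / 2))
        * (P (k + r) (n / 2 ^ r) - P (k + r + 1) (n / 2 ^ r / 2))).trace := by
    rw [tsum_eq_sum (s := iv (N - k) R)]
    · refine Finset.sum_congr rfl fun n hn => ?_
      unfold fW
      rw [if_pos hn, if_pos hn]
      have : n / 2 ^ (r + 1) = n / 2 ^ r / 2 := by
        rw [pow_succ, ← Int.ediv_ediv_of_nonneg (by positivity)]
      rw [this]
      rfl
    · intro n hn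
      unfold fW
      rw [if_neg hn, if_neg hn, sub_zero, Matrix.mul_zero, trace_zero]
  obtain ⟨l, hl⟩ : ∃ l, N - k = (l + 1) + r := ⟨N - k - r - 1, by omega⟩
  have hl2 : N - (k + r + 1) = l := by omega
  unfold lvV
  rw [h1, hl, hl2]
  rw [sum_iv_div (l + 1) r R (fun n =>
      ((P (k + r) n - P (k + r + 1) (n / 2)) * (P (k + r) n - P (k + r + 1) (n / 2))).trace)]
  rw [sum_iv_pair]
  have h2 : ∀ n : ℤ, 2 * n / 2 = n := fun n => by omega
  have h3 : ∀ n : ℤ, (2 * n + 1) / 2 = n := fun n => by omega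
  simp only [h2, h3, sq]
  rw [pow_add]
  ring

theorem MM_eqV {N k : ℕ} (hk : k ≤ N) (R : ℤ) (P : ℕ → ℤ → Matrix ι ι ℝ) :
    2 ^ k * MM (N - k) (fW N k R P) = SV N k R P := by
  unfold MM SV
  rw [mul_add, Finset.mul_sum, mul_left_comm, last_eq hk]
  congr 1
  refine Finset.sum_congr rfl fun r hr => ?_
  rw [mul_left_comm, level_V (by have := Finset.mem_range.1 hr; omega)]

/-- for exact outer averages nothing changes -/
theorem SV_eq_SEW {N k : ℕ} (hk : k ≤ N) {R : ℤ} {P : ℕ → ℤ → Matrix ι ι ℝ} (hP : Out N k P) :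
    SV N k R P = SEW N k (eW N R P) := by
  rw [← MM_eqV hk, MM_eqW hk hP]

theorem sq_nonneg' {X : Matrix ι ι ℝ} (h : Xᵀ = X) : 0 ≤ sq X := P075.trace_sq_nonneg h

theorem lvV_nonneg {N : ℕ} {R : ℤ} {P : ℕ → ℤ → Matrix ι ι ℝ} (sP : ∀ a n, (P a n)ᵀ = P a n)
    (a : ℕ) : 0 ≤ lvV N R P a :=
  mul_nonneg (by positivity) (Finset.sum_nonneg fun n _ => add_nonneg
    (sq_nonneg' (by rw [transpose_sub, sP, sP])) (sq_nonneg' (by rw [transpose_sub, sP, sP])))

theorem lvV_le_SV {N k : ℕ} (hk : k < N) {R : ℤ} {P : ℕ → ℤ → Matrix ι ι ℝ}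
    (sP : ∀ a n, (P a n)ᵀ = P a n) : lvV N R P k ≤ SV N k R P := by
  unfold SV
  obtain ⟨l, hl⟩ : ∃ l, N - k = l + 1 := ⟨N - k - 1, by omega⟩
  rw [hl, Finset.sum_range_succ']
  have h1 : 0 ≤ ∑ r ∈ range l, (3 / 4 : ℝ) ^ (r + 1) * lvV N R P (k + (r + 1)) :=
    Finset.sum_nonneg fun r _ => mul_nonneg (by positivity) (lvV_nonneg sP _)
  have h2 : 0 ≤ (3 / 4 : ℝ) ^ (l + 1) * eW N R P N :=
    mul_nonneg (by positivity) (eW_nonneg sP N)
  simp only [pow_zero, one_mul, add_zero]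
  linarith

/-- **Shift by one plane**, arbitrary families -/
theorem shiftV1 {N k : ℕ} (hk : k ≤ N) {R T : ℤ} {P Q : ℕ → ℤ → Matrix ι ι ℝ}
    (sP : ∀ a n, (P a n)ᵀ = P a n) (sQ : ∀ a n, (Q a n)ᵀ = Q a n) (s : ℤ) :
    2 ^ k * |alW N R T k (P k) (Q k) (s + 1) - alW N R T k (P k) (Q k) s|
      ≤ 4 * (SV N k R P + SV N k T Q) := by
  have h := first_diff_mat (N - k) (f := fW N k R P) (g := fW N k T Q)
    (fun r hr n => fW_blk N k R P hr n) (fun r hr n => fW_blk N k T Q hr n)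
    (fun r _ n => fW_symm sP r n) (fun r _ n => fW_symm sQ r n)
    (fun r _ => fW_fs ..) (fun r _ => fW_fs ..) s
  rw [cv_eq_alW, cv_eq_alW] at h
  have h2 := mul_le_mul_of_nonneg_left h (show (0 : ℝ) ≤ 2 ^ k by positivity)
  refine h2.trans (le_of_eq ?_)
  rw [← MM_eqV hk, ← MM_eqV hk]
  ring

/-- **Shift**: `|t' - t| ≤ D`. -/
theorem shiftV {N k : ℕ} (hk : k ≤ N) {R T : ℤ} {P Q : ℕ → ℤ → Matrix ι ι ℝ}
    (sP : ∀ a n, (P a n)ᵀ = P a n) (sQ : ∀ a n, (Q a n)ᵀ = Q a n) {t t' : ℤ} {D : ℕ}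
    (hD : |t' - t| ≤ D) :
    2 ^ k * |alW N R T k (P k) (Q k) t' - alW N R T k (P k) (Q k) t|
      ≤ 4 * D * (SV N k R P + SV N k T Q) := by
  set E := SV N k R P + SV N k T Q with hE
  have key : ∀ (d : ℕ) (u : ℤ), 2 ^ k * |alW N R T k (P k) (Q k) (u + d)
      - alW N R T k (P k) (Q k) u| ≤ 4 * d * E := by
    intro d
    induction d with
    | zero => intro u; simp
    | succ d ih =>
      intro u
      have h1 := shiftV1 hk (R := R) (T := T) sP sQ (u + d)
      rw [← hE] at h1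
      have h2 := ih u
      have h3 := abs_sub_le (alW N R T k (P k) (Q k) (u + ((d + 1 : ℕ) : ℤ)))
        (alW N R T k (P k) (Q k) (u + d)) (alW N R T k (P k) (Q k) u)
      have e : u + ((d + 1 : ℕ) : ℤ) = u + d + 1 := by push_cast; ring
      rw [e] at h3 ⊢
      have h4 := mul_le_mul_of_nonneg_left h3 (show (0 : ℝ) ≤ 2 ^ k by positivity)
      push_cast
      linarith
  have hE0 : 0 ≤ E := by
    have h := key 1 0
    have h2 : 0 ≤ (2 : ℝ) ^ k * |alW N R T k (P k) (Q k) (0 + ((1 : ℕ) : ℤ))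
      - alW N R T k (P k) (Q k) 0| := by positivity
    push_cast at h
    push_cast at h2
    linarith
  have hD' := abs_le.1 hD
  rcases le_total t t' with h | h
  · obtain ⟨d, hd⟩ : ∃ d : ℕ, t' = t + d := ⟨(t' - t).toNat, by omega⟩
    have h1 := key d t
    rw [← hd] at h1
    have hdD : (d : ℝ) ≤ D := by
      have : d ≤ D := by omega
      exact_mod_cast this
    have := mul_le_mul_of_nonneg_right hdD hE0
    linarith
  · obtain ⟨d, hd⟩ : ∃ d : ℕ, t = t' + d := ⟨(t - t').toNat, by omega⟩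
    have h1 := key d t'
    rw [← hd, abs_sub_comm] at h1
    have hdD : (d : ℝ) ≤ D := by
      have : d ≤ D := by omega
      exact_mod_cast this
    have := mul_le_mul_of_nonneg_right hdD hE0
    linarith

/-- mean of two outer cells -/
def mn (p : ℤ → Matrix ι ι ℝ) (n : ℤ) : Matrix ι ι ℝ := (1 / 2 : ℝ) • (p (2 * n) + p (2 * n + 1))

/-- the mean is the closest point -/
theorem mean_le {X Y Z : Matrix ι ι ℝ} (hX : Xᵀ = X) (hY : Yᵀ = Y) (hZ : Zᵀ = Z) :
    (X * X).trace + (Y * Y).trace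
        - 2 * (((1 / 2 : ℝ) • (X + Y)) * ((1 / 2 : ℝ) • (X + Y))).trace
      ≤ sq (X - Z) + sq (Y - Z) := by
  have h := P075.trace_sq_nonneg (B := (1 / 2 : ℝ) • (X + Y) - Z)
    (by rw [transpose_sub, transpose_smul, transpose_add, hX, hY, hZ])
  have c1 := trace_mul_comm Z X
  have c2 := trace_mul_comm Z Y
  have c3 := trace_mul_comm Y X
  unfold sq
  simp only [Matrix.sub_mul, Matrix.mul_sub, Matrix.smul_mul, Matrix.mul_smul, Matrix.add_mul,
    Matrix.mul_add, trace_sub, trace_add, trace_smul, smul_eq_mul] at h ⊢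
  rw [c1, c2, c3] at h
  rw [c1, c2, c3]
  linarith

/-- outer split on a plane, one middle index, arbitrary families -/
theorem outer_splitV {N k : ℕ} (h : k < N) {R T : ℤ} {P Q : ℕ → ℤ → Matrix ι ι ℝ}
    (sP : ∀ a n, (P a n)ᵀ = P a n) (sQ : ∀ a n, (Q a n)ᵀ = Q a n) (s : ℤ) :
    2 ^ (k + 1) * ∑ n ∈ iv (N - (k + 1)) R, (if s - n ∈ iv (N - (k + 1)) T then
      (mn (P k) n * mn (Q k) (s - n)).trace else 0)
      ≤ 2 ^ k * alW N R T k (P k) (Q k) (2 * s + 1)
        + (1 / 2) * lvV N R P k + (1 / 2) * lvV N T Q k := by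
  set dP : ℤ → ℝ := fun n => sq (P k (2 * n) - P (k + 1) n) + sq (P k (2 * n + 1) - P (k + 1) n)
    with hdP
  set dQ : ℤ → ℝ := fun n => sq (Q k (2 * n) - Q (k + 1) n) + sq (Q k (2 * n + 1) - Q (k + 1) n)
    with hdQ
  have hP0 : ∀ n, 0 ≤ dP n := fun n => add_nonneg
    (sq_nonneg' (by rw [transpose_sub, sP, sP])) (sq_nonneg' (by rw [transpose_sub, sP, sP]))
  have hQ0 : ∀ n, 0 ≤ dQ n := fun n => add_nonneg
    (sq_nonneg' (by rw [transpose_sub, sQ, sQ])) (sq_nonneg' (by rw [transpose_sub, sQ, sQ]))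
  have hpt : ∀ n n', (mn (P k) n * mn (Q k) n').trace
      ≤ (1 / 2) * ((P k (2 * n) * Q k (2 * n' + 1)).trace + (P k (2 * n + 1) * Q k (2 * n')).trace)
        + (1 / 4) * dP n + (1 / 4) * dQ n' := by
    intro n n'
    have q1 := opp_pt (sP k (2 * n)) (sP k (2 * n + 1)) (sQ k (2 * n')) (sQ k (2 * n' + 1))
    have q2 := mean_le (sP k (2 * n)) (sP k (2 * n + 1)) (sP (k + 1) n)
    have q3 := mean_le (sQ k (2 * n')) (sQ k (2 * n' + 1)) (sQ (k + 1) n')
    simp only [hdP, hdQ, mn]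
    linarith
  have herr : ∀ (R : ℤ) (P : ℕ → ℤ → Matrix ι ι ℝ), 2 ^ (k + 1) * ((1 / 4) *
      ∑ n ∈ iv (N - (k + 1)) R, (sq (P k (2 * n) - P (k + 1) n)
        + sq (P k (2 * n + 1) - P (k + 1) n))) = (1 / 2) * lvV N R P k := by
    intro R P
    unfold lvV
    rw [pow_succ]
    ring
  have hsum : ∑ n ∈ iv (N - (k + 1)) R, (if s - n ∈ iv (N - (k + 1)) T then
      (mn (P k) n * mn (Q k) (s - n)).trace else 0)
      ≤ (1 / 2) * alW N R T k (P k) (Q k) (2 * s + 1)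
        + (1 / 4) * ∑ n ∈ iv (N - (k + 1)) R, dP n + (1 / 4) * ∑ n ∈ iv (N - (k + 1)) T, dQ n := by
    have h5 := H588.sum_refl_le (N - (k + 1)) R T s dQ hQ0
    have h6 := mul_le_mul_of_nonneg_left h5 (by norm_num : (0 : ℝ) ≤ 1 / 4)
    refine le_trans ?_ (add_le_add_right h6 _)
    rw [← alW_split h, Finset.mul_sum, Finset.mul_sum, Finset.mul_sum, ← Finset.sum_add_distrib,
      ← Finset.sum_add_distrib]
    refine Finset.sum_le_sum fun n _ => ?_
    split_ifs with hc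
    · exact hpt n (s - n)
    · have := hP0 n
      simp only [mul_zero, zero_add, add_zero]
      positivity
  have h7 := mul_le_mul_of_nonneg_left hsum (show (0 : ℝ) ≤ 2 ^ (k + 1) by positivity)
  refine h7.trans (le_of_eq ?_)
  rw [mul_add, mul_add, herr R P, herr T Q, pow_succ]
  ring

/-! ### All middle indices -/

variable {κ : Type*} [Fintype κ]

/-- shift energy of a family with middle index -/
def SVM (N k : ℕ) (R S : ℤ) (P : ℕ → ℤ → ℤ → Matrix ι ι ℝ) : ℝ :=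
  2 ^ k * ∑ m ∈ iv (N - k) S, SV N k R (fun a n => P a n m)

/-- for exact outer averages this is the energy of `PlaneW` -/
theorem SVM_eq {N k : ℕ} (hk : k ≤ N) {R S : ℤ} {P : ℕ → ℤ → ℤ → Matrix ι ι ℝ}
    (hP : OutM N k P) : SVM N k R S P = SEW N k (EW N R S k P) := by
  rw [SEW_eq, SVM]
  refine congrArg _ (Finset.sum_congr rfl fun m _ => ?_)
  exact SV_eq_SEW hk fun a h1 h2 n => hP a h1 h2 n m

/-- **The step**, arbitrary symmetric families; the middle hypothesis with exact means. -/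
theorem stepV {N k : ℕ} (h : k < N) {R S T : ℤ} {c : ℕ → ℤ} (hc : H588.Pl c)
    {P Q : ℕ → ℤ → ℤ → Matrix ι ι ℝ} {pu qu : ℤ → ℤ → Matrix κ κ ℝ} {g : ℤ → ℤ → ℤ → ℝ}
    (sP : ∀ a n m, (P a n m)ᵀ = P a n m) (sQ : ∀ a n m, (Q a n m)ᵀ = Q a n m)
    (mid : ∀ n n' m, (pu n m * qu n' m).trace + g n n' m
      ≤ (1 / 2) * ((mn (fun n => P k n (2 * m)) n * mn (fun n => Q k n (2 * m)) n').trace
        + (mn (fun n => P k n (2 * m + 1)) n * mn (fun n => Q k n (2 * m + 1)) n').trace)) :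
    MW N R S T (k + 1) (c (k + 1)) pu qu + GW N R S T (k + 1) (c (k + 1)) g
      ≤ MW N R S T k (c k) (P k) (Q k) + 9 * (SVM N k R S P + SVM N k T S Q) := by
  have e : N - k = (N - (k + 1)) + 1 := by omega
  -- the middle split
  have h1 : MW N R S T (k + 1) (c (k + 1)) pu qu + GW N R S T (k + 1) (c (k + 1)) g
      ≤ 2 ^ k * ∑ m ∈ iv (N - k) S, (2 ^ (k + 1) * ∑ n ∈ iv (N - (k + 1)) R,
        (if c (k + 1) - m / 2 - n ∈ iv (N - (k + 1)) T then
          (mn (fun n => P k n m) n * mn (fun n => Q k n m) (c (k + 1) - m / 2 - n)).trace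
          else 0)) := by
    rw [e, H588.sum_iv_succ]
    unfold MW GW
    rw [← mul_add, ← Finset.sum_add_distrib]
    have h4 : (4 : ℝ) ^ (k + 1) = 2 ^ k * (2 * 2 ^ (k + 1)) := by
      rw [show (4 : ℝ) = 2 * 2 by norm_num, mul_pow, pow_succ]; ring
    rw [h4, mul_assoc]
    refine mul_le_mul_of_nonneg_left ?_ (by positivity)
    rw [Finset.mul_sum]
    refine Finset.sum_le_sum fun m _ => ?_
    have e1 : 2 * m / 2 = m := by omega
    have e2 : (2 * m + 1) / 2 = m := by omega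
    rw [e1, e2, ← mul_add, mul_comm (2 : ℝ) (2 ^ (k + 1)), mul_assoc]
    refine mul_le_mul_of_nonneg_left ?_ (by positivity)
    rw [← Finset.sum_add_distrib, ← Finset.sum_add_distrib, Finset.mul_sum]
    refine Finset.sum_le_sum fun n _ => ?_
    split_ifs with hcc
    · have := mid n (c (k + 1) - m - n) m
      linarith
    · simp
  refine h1.trans ?_
  -- the outer split and the shift
  have h2 : ∀ m, 2 ^ (k + 1) * ∑ n ∈ iv (N - (k + 1)) R,
        (if c (k + 1) - m / 2 - n ∈ iv (N - (k + 1)) T then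
          (mn (fun n => P k n m) n * mn (fun n => Q k n m) (c (k + 1) - m / 2 - n)).trace
          else 0)
      ≤ 2 ^ k * alW N R T k (fun n => P k n m) (fun n => Q k n m) (c k - m)
        + 9 * (SV N k R (fun a n => P a n m) + SV N k T (fun a n => Q a n m)) := by
    intro m
    have yP : ∀ a n, ((fun a n => P a n m) a n)ᵀ = (fun a n => P a n m) a n := fun a n => sP a n m
    have yQ : ∀ a n, ((fun a n => Q a n m) a n)ᵀ = (fun a n => Q a n m) a n := fun a n => sQ a n m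
    have q1 := outer_splitV h (R := R) (T := T) yP yQ (c (k + 1) - m / 2)
    have q2 := shiftV h.le (R := R) (T := T) yP yQ (t := c k - m)
      (t' := 2 * (c (k + 1) - m / 2) + 1) (D := 2) (by
        have := hc k
        rw [abs_le]
        push_cast
        constructor <;> omega)
    have q3 := lvV_le_SV h (R := R) yP
    have q4 := lvV_le_SV h (R := T) yQ
    have q5 : (2 : ℝ) ^ k * (alW N R T k (fun n => P k n m) (fun n => Q k n m)
          (2 * (c (k + 1) - m / 2) + 1) - alW N R T k (fun n => P k n m) (fun n => Q k n m)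
          (c k - m)) ≤ 2 ^ k * |alW N R T k (fun n => P k n m) (fun n => Q k n m)
          (2 * (c (k + 1) - m / 2) + 1) - alW N R T k (fun n => P k n m) (fun n => Q k n m)
          (c k - m)| := mul_le_mul_of_nonneg_left (le_abs_self _) (by positivity)
    have p3 := lvV_nonneg (N := N) (R := R) yP k
    have p4 := lvV_nonneg (N := N) (R := T) yQ k
    push_cast at q2
    linarith
  refine (mul_le_mul_of_nonneg_left (Finset.sum_le_sum fun m _ => h2 m) (by positivity)).trans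
    (le_of_eq ?_)
  rw [SVM, SVM, Finset.sum_add_distrib, ← Finset.mul_sum, ← Finset.mul_sum,
    Finset.sum_add_distrib, MW]
  have h4 : (4 : ℝ) ^ k = 2 ^ k * 2 ^ k := by rw [← mul_pow]; norm_num
  rw [h4]
  unfold alW
  ring

/-! ### Telescoping -/

/-- **The sum of the gains over all scales**, families at time `k` : `P k`, `Q k`. -/
theorem totalV {k₀ N : ℕ} (hkN : k₀ ≤ N) {R S T : ℤ} {c : ℕ → ℤ} (hc : H588.Pl c)
    {ι : ℕ → Type*} [∀ k, Fintype (ι k)]
    {P Q : ∀ k, ℕ → ℤ → ℤ → Matrix (ι k) (ι k) ℝ} {g : ℕ → ℤ → ℤ → ℤ → ℝ}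
    (sP : ∀ k a n m, (P k a n m)ᵀ = P k a n m) (sQ : ∀ k a n m, (Q k a n m)ᵀ = Q k a n m)
    (mid : ∀ k, k₀ ≤ k → k < N → ∀ n n' m,
      (P (k + 1) (k + 1) n m * Q (k + 1) (k + 1) n' m).trace + g k n n' m
      ≤ (1 / 2) * ((mn (fun n => P k k n (2 * m)) n * mn (fun n => Q k k n (2 * m)) n').trace
        + (mn (fun n => P k k n (2 * m + 1)) n
          * mn (fun n => Q k k n (2 * m + 1)) n').trace)) :
    ∑ k ∈ Ico k₀ N, GW N R S T (k + 1) (c (k + 1)) (g k)
      ≤ (1 / 2) * (EW N R S k₀ (P k₀) k₀ + EW N T S k₀ (Q k₀) k₀)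
        + (1 / 2) * (EW N R S N (P N) N + EW N T S N (Q N) N)
        + 9 * ∑ k ∈ Ico k₀ N, (SVM N k R S (P k) + SVM N k T S (Q k)) := by
  have key : ∀ K, k₀ ≤ K → K ≤ N → ∑ k ∈ Ico k₀ K, GW N R S T (k + 1) (c (k + 1)) (g k)
      + MW N R S T K (c K) (P K K) (Q K K)
      ≤ MW N R S T k₀ (c k₀) (P k₀ k₀) (Q k₀ k₀)
        + 9 * ∑ k ∈ Ico k₀ K, (SVM N k R S (P k) + SVM N k T S (Q k)) := by
    intro K hK
    induction K, hK using Nat.le_induction with
    | base => intro _; simp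
    | succ K hK ih =>
      intro hKN
      have hlt : K < N := by omega
      have q := ih hlt.le
      have q1 := stepV hlt hc (sP K) (sQ K) (mid K hK hlt) (R := R) (S := S) (T := T)
      rw [sum_Ico_succ_top hK, sum_Ico_succ_top hK]
      linarith
  have h := key N hkN le_rfl
  have q1 := abs_le.1 (abs_MW_le N R S T N (c N) (sP N) (sQ N))
  have p1 := abs_le.1 (abs_MW_le N R S T k₀ (c k₀) (sP k₀) (sQ k₀))
  linarith

/-! ### Scaling -/

theorem sq_smul (μ : ℝ) (X : Matrix ι ι ℝ) : sq (μ • X) = μ ^ 2 * sq X := by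
  unfold sq
  rw [Matrix.smul_mul, Matrix.mul_smul, trace_smul, trace_smul, smul_eq_mul, smul_eq_mul]
  ring

theorem lvV_smul (N : ℕ) (R : ℤ) (μ : ℝ) (P : ℕ → ℤ → Matrix ι ι ℝ) (a : ℕ) :
    lvV N R (fun a n => μ • P a n) a = μ ^ 2 * lvV N R P a := by
  unfold lvV
  simp only [← smul_sub, sq_smul, ← mul_add, ← Finset.mul_sum]
  ring

theorem eW_smul (N : ℕ) (R : ℤ) (μ : ℝ) (P : ℕ → ℤ → Matrix ι ι ℝ) (a : ℕ) :
    eW N R (fun a n => μ • P a n) a = μ ^ 2 * eW N R P a := by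
  unfold eW
  simp only [Matrix.smul_mul, Matrix.mul_smul, trace_smul, smul_eq_mul, ← Finset.mul_sum]
  ring

theorem SV_smul (N k : ℕ) (R : ℤ) (μ : ℝ) (P : ℕ → ℤ → Matrix ι ι ℝ) :
    SV N k R (fun a n => μ • P a n) = μ ^ 2 * SV N k R P := by
  unfold SV
  rw [eW_smul, mul_add, Finset.mul_sum]
  congr 1
  · exact Finset.sum_congr rfl fun r _ => by rw [lvV_smul]; ring
  · ring

theorem SVM_smul (N k : ℕ) (R S : ℤ) (μ : ℝ) (P : ℕ → ℤ → ℤ → Matrix ι ι ℝ) :
    SVM N k R S (fun a n m => μ • P a n m) = μ ^ 2 * SVM N k R S P := by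
  unfold SVM
  simp only [SV_smul N k R μ (fun a n => P a n _), ← Finset.mul_sum]
  ring

omit [Fintype ι] in
theorem mn_smul (μ : ℝ) (p : ℤ → Matrix ι ι ℝ) (n : ℤ) :
    mn (fun n => μ • p n) n = μ • mn p n := by
  unfold mn
  rw [← smul_add, smul_comm]

theorem SV_nonneg {N k : ℕ} {R : ℤ} {P : ℕ → ℤ → Matrix ι ι ℝ} (sP : ∀ a n, (P a n)ᵀ = P a n) :
    0 ≤ SV N k R P :=
  add_nonneg (Finset.sum_nonneg fun _ _ => mul_nonneg (by positivity) (lvV_nonneg sP _))
    (mul_nonneg (by positivity) (eW_nonneg sP N))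

theorem SVM_nonneg {N k : ℕ} {R S : ℤ} {P : ℕ → ℤ → ℤ → Matrix ι ι ℝ}
    (sP : ∀ a n m, (P a n m)ᵀ = P a n m) : 0 ≤ SVM N k R S P :=
  mul_nonneg (by positivity) (Finset.sum_nonneg fun m _ => SV_nonneg fun a n => sP a n m)

/-- the energy of one family over all scales -/
def TV (k₀ N : ℕ) (R S : ℤ) {ι : ℕ → Type*} [∀ k, Fintype (ι k)]
    (P : ∀ k, ℕ → ℤ → ℤ → Matrix (ι k) (ι k) ℝ) : ℝ :=
  EW N R S k₀ (P k₀) k₀ + EW N R S N (P N) N + 18 * ∑ k ∈ Ico k₀ N, SVM N k R S (P k)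

theorem TV_nonneg {k₀ N : ℕ} {R S : ℤ} {ι : ℕ → Type*} [∀ k, Fintype (ι k)]
    {P : ∀ k, ℕ → ℤ → ℤ → Matrix (ι k) (ι k) ℝ} (sP : ∀ k a n m, (P k a n m)ᵀ = P k a n m) :
    0 ≤ TV k₀ N R S P :=
  add_nonneg (add_nonneg (EW_nonneg (sP k₀) k₀) (EW_nonneg (sP N) N))
    (mul_nonneg (by norm_num) (Finset.sum_nonneg fun k _ => SVM_nonneg (sP k)))

/-- **Product form**: the sum of the gains is at most `√(TV P · TV Q)`. -/
theorem totalV_sqrt {k₀ N : ℕ} (hkN : k₀ ≤ N) {R S T : ℤ} {c : ℕ → ℤ} (hc : H588.Pl c)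
    {ι : ℕ → Type*} [∀ k, Fintype (ι k)]
    {P Q : ∀ k, ℕ → ℤ → ℤ → Matrix (ι k) (ι k) ℝ} {g : ℕ → ℤ → ℤ → ℤ → ℝ}
    (sP : ∀ k a n m, (P k a n m)ᵀ = P k a n m) (sQ : ∀ k a n m, (Q k a n m)ᵀ = Q k a n m)
    (mid : ∀ k, k₀ ≤ k → k < N → ∀ n n' m,
      (P (k + 1) (k + 1) n m * Q (k + 1) (k + 1) n' m).trace + g k n n' m
      ≤ (1 / 2) * ((mn (fun n => P k k n (2 * m)) n * mn (fun n => Q k k n (2 * m)) n').trace
        + (mn (fun n => P k k n (2 * m + 1)) n
          * mn (fun n => Q k k n (2 * m + 1)) n').trace)) :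
    ∑ k ∈ Ico k₀ N, GW N R S T (k + 1) (c (k + 1)) (g k)
      ≤ √(TV k₀ N R S P * TV k₀ N T S Q) := by
  set G := ∑ k ∈ Ico k₀ N, GW N R S T (k + 1) (c (k + 1)) (g k) with hG
  set X := TV k₀ N R S P with hX
  set Y := TV k₀ N T S Q with hY
  have X0 : 0 ≤ X := TV_nonneg sP
  have Y0 : 0 ≤ Y := TV_nonneg sQ
  have key : ∀ μ : ℝ, 0 < μ → G ≤ (1 / 2) * (μ ^ 2 * X + (μ⁻¹) ^ 2 * Y) := by
    intro μ hμ
    have h := totalV hkN hc (P := fun k a n m => μ • P k a n m)
      (Q := fun k a n m => μ⁻¹ • Q k a n m) (g := g) (R := R) (S := S) (T := T)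
      (fun k a n m => by rw [transpose_smul, sP]) (fun k a n m => by rw [transpose_smul, sQ])
      (fun k h1 h2 n n' m => by
        have := mid k h1 h2 n n' m
        simp only [mn_smul, Matrix.smul_mul, Matrix.mul_smul, smul_smul,
          inv_mul_cancel₀ hμ.ne', one_smul]
        exact this)
    simp only [EW_smul, SVM_smul] at h
    refine h.trans (le_of_eq ?_)
    rw [hX, hY, TV, TV, Finset.sum_add_distrib, ← Finset.mul_sum, ← Finset.mul_sum]
    ring
  rw [Real.sqrt_mul X0]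
  have sX := Real.sq_sqrt X0
  have sY := Real.sq_sqrt Y0
  have nX := Real.sqrt_nonneg X
  have nY := Real.sqrt_nonneg Y
  refine le_of_forall_pos_le_add fun ε hε => ?_
  set δ : ℝ := min 1 (ε / (√X + √Y + 1)) with hδ
  have hden : 0 < √X + √Y + 1 := by positivity
  have δ0 : 0 < δ := lt_min one_pos (by positivity)
  have δ1 : δ ≤ 1 := min_le_left _ _
  have δ2 : (√X + √Y + 1) * δ ≤ ε := by
    have := min_le_right (1 : ℝ) (ε / (√X + √Y + 1))
    rw [← hδ, le_div_iff₀ hden] at this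
    linarith
  have a0 : 0 < √X + δ := by positivity
  have b0 : 0 < √Y + δ := by positivity
  have h := key (√((√Y + δ) / (√X + δ))) (Real.sqrt_pos.2 (div_pos b0 a0))
  rw [inv_pow, Real.sq_sqrt (div_pos b0 a0).le, inv_div] at h
  have c1 : (√Y + δ) / (√X + δ) * X ≤ (√Y + δ) * (√X + δ) := by
    rw [div_mul_eq_mul_div, div_le_iff₀ a0, mul_assoc]
    refine mul_le_mul_of_nonneg_left ?_ b0.le
    nlinarith
  have c2 : (√X + δ) / (√Y + δ) * Y ≤ (√Y + δ) * (√X + δ) := by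
    rw [div_mul_eq_mul_div, div_le_iff₀ b0]
    have : Y ≤ (√Y + δ) * (√Y + δ) := by nlinarith
    calc (√X + δ) * Y ≤ (√X + δ) * ((√Y + δ) * (√Y + δ)) :=
          mul_le_mul_of_nonneg_left this a0.le
      _ = _ := by ring
  have c3 : (√Y + δ) * (√X + δ) ≤ √X * √Y + (√X + √Y + 1) * δ := by nlinarith
  linarith

end

end Vale.Agent.P141.H389
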