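import Vale.Agent.P141.H389.RealAC
import Vale.Agent.P141.H336.TVst

/-!
# Families of time dependent slots

`A k`, `c k` are the functions of time `k`. Changes of `A` are paid by the mass of the new
function on the affected row pieces; rows of `c` may be removed.
-/

namespace Vale.Agent.P141.H389

open Finset Matrix Vale.Agent.P141.PL Vale.Agent.P141.PL.H103 Vale.Agent.P141.H103
open Vale.Agent.P075 (Ix val phi delt rad GX res)
open Vale.Agent.P141.H585.PairCh (phs dls)
open Vale.Agent.P141.H505 (SG SD GX_tangent)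

noncomputable section

/-! ### Matrices -/

section mat

variable {n : Type*} [Fintype n] [DecidableEq n]

/-- the cap is monotone -/
theorem phs_mono {s : ℝ} (hs : 0 < s) {X E : Matrix n n ℝ} (hX : X.PosSemidef)
    (hE : E.PosSemidef) : (phs s (X + E) - phs s X).PosSemidef := by
  have hi : 0 ≤ s⁻¹ := (inv_pos.2 hs).le
  have h := P075.res_anti (hX.smul hi) (hE.smul hi)
  have e : phs s (X + E) - phs s X = s • (res (s⁻¹ • X) - res (s⁻¹ • X + s⁻¹ • E)) := by
    unfold phs phi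
    rw [smul_add, ← smul_sub]
    congr 1
    abel
  rw [e]
  exact h.smul hs.le

theorem tr_phs_le {s : ℝ} (hs : 0 < s) {E : Matrix n n ℝ} (hE : E.PosSemidef) :
    (phs s E).trace ≤ E.trace := by
  have hi : 0 ≤ s⁻¹ := (inv_pos.2 hs).le
  have h := (H585.PairCh.sub_phi_psd (hE.smul hi)).trace_nonneg
  rw [trace_sub, trace_smul, smul_eq_mul] at h
  unfold phs
  rw [trace_smul, smul_eq_mul]
  have h2 := mul_le_mul_of_nonneg_left (sub_nonneg.1 h) hs.le
  refine h2.trans (le_of_eq ?_)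
  field_simp

/-- the trace of the cap is subadditive -/
theorem tr_phs_add_le {s : ℝ} (hs : 0 < s) {X E : Matrix n n ℝ} (hX : X.PosSemidef)
    (hE : E.PosSemidef) : (phs s (X + E)).trace ≤ (phs s X).trace + E.trace := by
  have hi : 0 ≤ s⁻¹ := (inv_pos.2 hs).le
  have h := P075.trace_phi_add_le (hX.smul hi) (hE.smul hi)
  have h1 := tr_phs_le hs hE
  unfold phs at h1 ⊢
  rw [trace_smul, trace_smul, smul_eq_mul, smul_eq_mul] at *
  rw [smul_add]
  have h2 := mul_le_mul_of_nonneg_left h hs.le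
  linarith

theorem phs_psd {s : ℝ} (hs : 0 < s) {X : Matrix n n ℝ} (hX : X.PosSemidef) :
    (phs s X).PosSemidef :=
  (P075.phi_psd (hX.smul (inv_pos.2 hs).le)).smul hs.le

theorem phs_cap {s : ℝ} (hs : 0 < s) {X : Matrix n n ℝ} (hX : X.PosSemidef) :
    (s • (1 : Matrix n n ℝ) - phs s X).PosSemidef := by
  have h := (P075.one_sub_phi_psd (hX.smul (inv_pos.2 hs).le)).smul hs.le
  rwa [smul_sub] at h

/-- **change of both slots**, both capped: the first slot grows by at most `E`, the second only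
decreases -/
theorem change_ss {s1 s2 : ℝ} (h1 : 0 < s1) (h2 : 0 < s2) {V V' E B W W' F : Matrix n n ℝ}
    (pV : V.PosSemidef) (pV' : V'.PosSemidef) (pE : E.PosSemidef) (pB : B.PosSemidef)
    (pW' : W'.PosSemidef) (pF : F.PosSemidef)
    (eV : V + E = V' + B) (eW : W = W' + F) :
    (phs s1 V' * phs s2 W').trace ≤ (phs s1 V * phs s2 W).trace + s2 * E.trace := by
  have pW : W.PosSemidef := by rw [eW]; exact pW'.add pF
  -- second slot
  have a1 : (phs s1 V' * phs s2 W').trace ≤ (phs s1 V' * phs s2 W).trace := by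
    have := phs_mono h2 pW' pF
    rw [← eW] at this
    exact P075.trace_mul_le_right (phs_psd h1 pV') this
  -- first slot up to `V + E`
  have a2 : (phs s1 V' * phs s2 W).trace ≤ (phs s1 (V + E) * phs s2 W).trace := by
    have := phs_mono h1 pV' pB
    rw [← eV] at this
    exact P075.trace_mul_le_left (phs_psd h2 pW) this
  have a3 : ((phs s1 (V + E) - phs s1 V) * phs s2 W).trace
      ≤ s2 * (phs s1 (V + E) - phs s1 V).trace := by
    have := P075.trace_mul_le_right (phs_mono h1 pV pE) (phs_cap h2 pW)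
    rwa [Matrix.mul_smul, Matrix.mul_one, trace_smul, smul_eq_mul] at this
  rw [Matrix.sub_mul, trace_sub, trace_sub] at a3
  have a4 := tr_phs_add_le h1 pV pE
  have a5 : s2 * ((phs s1 (V + E)).trace - (phs s1 V).trace) ≤ s2 * E.trace :=
    mul_le_mul_of_nonneg_left (by linarith) h2.le
  linarith

/-- change of both slots, first slot raw with cap `t` on the second slot -/
theorem change_raw {s2 : ℝ} (h2 : 0 < s2) {V V' E B W W' F : Matrix n n ℝ}
    (pV' : V'.PosSemidef) (pE : E.PosSemidef) (pB : B.PosSemidef)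
    (pW' : W'.PosSemidef) (pF : F.PosSemidef)
    (eV : V + E = V' + B) (eW : W = W' + F) :
    (V' * phs s2 W').trace ≤ (V * phs s2 W).trace + s2 * E.trace := by
  have pW : W.PosSemidef := by rw [eW]; exact pW'.add pF
  have a1 : (V' * phs s2 W').trace ≤ (V' * phs s2 W).trace := by
    have := phs_mono h2 pW' pF
    rw [← eW] at this
    exact P075.trace_mul_le_right pV' this
  have a2 : (V' * phs s2 W).trace ≤ ((V + E) * phs s2 W).trace := by
    rw [eV, Matrix.add_mul, trace_add]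
    have := P075.trace_mul_nonneg pB (phs_psd h2 pW)
    linarith
  have a3 : (E * phs s2 W).trace ≤ s2 * E.trace := by
    have := P075.trace_mul_le_right pE (phs_cap h2 pW)
    rwa [Matrix.mul_smul, Matrix.mul_one, trace_smul, smul_eq_mul] at this
  rw [Matrix.add_mul, trace_add] at a2
  linarith

/-- `GX` is monotone -/
theorem GX_mono {X E : Matrix n n ℝ} (hX : X.PosSemidef) (hE : E.PosSemidef) :
    GX X ≤ GX (X + E) := by
  have h := GX_tangent hX (hX.add hE)
  rw [add_sub_cancel_left] at h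
  have h2 := P075.trace_mul_nonneg (P075.phi_psd hX) hE
  linarith

/-- `GX` grows at most by the trace -/
theorem GX_add_le {X E : Matrix n n ℝ} (hX : X.PosSemidef) (hE : E.PosSemidef) :
    GX (X + E) ≤ GX X + E.trace := by
  have h := GX_tangent (hX.add hE) hX
  rw [show X - (X + E) = -E by abel, Matrix.mul_neg, trace_neg] at h
  have h2 := P075.trace_mul_le_left hE (P075.one_sub_phi_psd (hX.add hE))
  rw [Matrix.one_mul] at h2
  linarith

theorem SG_mono {μ : ℝ} (hμ : 0 < μ) (J : ℕ) {X E : Matrix n n ℝ} (hX : X.PosSemidef)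
    (hE : E.PosSemidef) : SG μ J X ≤ SG μ J (X + E) := by
  unfold SG
  refine Finset.sum_le_sum fun j _ => mul_le_mul_of_nonneg_left ?_ (by positivity)
  have hi : (0 : ℝ) ≤ μ / 4 ^ j := by positivity
  rw [smul_add]
  exact GX_mono (hX.smul hi) (hE.smul hi)

theorem SG_add_le {μ : ℝ} (hμ : 0 < μ) (J : ℕ) {X E : Matrix n n ℝ} (hX : X.PosSemidef)
    (hE : E.PosSemidef) : SG μ J (X + E) ≤ SG μ J X + ((J : ℝ) + 1) * E.trace := by
  unfold SG
  have h : ∀ j ∈ range (J + 1), (μ / 4 ^ j)⁻¹ * GX ((μ / 4 ^ j) • (X + E))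
      ≤ (μ / 4 ^ j)⁻¹ * GX ((μ / 4 ^ j) • X) + E.trace := by
    intro j _
    have hi : (0 : ℝ) < μ / 4 ^ j := by positivity
    have h1 := GX_add_le (hX.smul hi.le) (hE.smul hi.le)
    rw [← smul_add, trace_smul, smul_eq_mul] at h1
    have h2 := mul_le_mul_of_nonneg_left h1 (inv_pos.2 hi).le
    rw [mul_add, inv_mul_cancel_left₀ hi.ne'] at h2
    exact h2
  refine (Finset.sum_le_sum h).trans (le_of_eq ?_)
  rw [Finset.sum_add_distrib, Finset.sum_const, card_range, nsmul_eq_mul]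
  push_cast
  ring

end mat

/-! ### Row pieces -/

section rows

open Classical in
/-- the function `f` restricted to the row pieces (row `x`, middle cell of scale `k`) in `P` -/
def rst {α : Type*} [Zero α] (P : ℤ → ℤ → Prop) (k : ℕ) (f : ℤ → ℤ → α) : ℤ → ℤ → α :=
  fun x y => if P x (ix k y) then f x y else 0

variable {κ : Type*} [Fintype κ]

theorem cell_ix {k : ℕ} {m : ℤ} (j : Ix k) : ix k (2 ^ k * m + val k j) = m := by
  refine mem_iv.1 ?_
  unfold iv
  rw [mem_Ico]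
  have h := Vale.Agent.P075.val_lt k j
  have h2 : ((val k j : ℕ) : ℤ) < 2 ^ k := by exact_mod_cast h
  constructor
  · have : (0 : ℤ) ≤ (val k j : ℕ) := Int.natCast_nonneg _
    linarith
  · linarith

/-- **Change of a Gram matrix**: `b'` agrees with `b` on the row pieces outside `P`. -/
theorem QW_change {k : ℕ} {P : ℤ → ℤ → Prop} {b b' : ℤ → ℤ → κ → ℝ}
    (h : ∀ x m, ¬ P x m → ∀ y ∈ iv k m, b' x y = b x y) (a : ℕ) (W : ℤ → Matrix κ κ ℝ)
    (n m : ℤ) :
    QW a k b W n m + QW a k (rst P k b') W n m = QW a k b' W n m + QW a k (rst P k b) W n m := by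
  ext j j'
  simp only [Matrix.add_apply, QW]
  rw [← mul_add, ← mul_add, ← Finset.sum_add_distrib, ← Finset.sum_add_distrib]
  congr 1
  refine Finset.sum_congr rfl fun x _ => ?_
  by_cases hP : P x m
  · simp only [rst, cell_ix, hP, if_true]
    ring
  · have h1 := h x m hP _ (mem_iv.2 (cell_ix j))
    have h2 := h x m hP _ (mem_iv.2 (cell_ix j'))
    simp only [rst, cell_ix, hP, if_false, h1, h2]

end rows

/-! ### Energies -/

section energy

variable {κ : Type*} [Fintype κ] [DecidableEq κ]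

/-- trace of a weighted Gram matrix -/
theorem tr_QW1 (b : ℤ → ℤ → κ → ℝ) (a k : ℕ) (n m : ℤ) (W : ℤ → Matrix κ κ ℝ) :
    (QW a k b W n m).trace
      = ((2 : ℝ) ^ a * 2 ^ k)⁻¹ * ∑ x ∈ iv a n, ∑ y ∈ iv k m, b x y ⬝ᵥ W x *ᵥ b x y := by
  rw [QW_eq, tr_quad]

/-- the total trace is a sum over points, for every outer scale -/
theorem sum_tr_QW {N a k : ℕ} (ha : a ≤ N) (hk : k ≤ N) (T S : ℤ) (b : ℤ → ℤ → κ → ℝ)
    (W : ℤ → ℤ → Matrix κ κ ℝ) :
    (2 : ℝ) ^ a * 2 ^ k * ∑ m ∈ iv (N - k) S, ∑ n ∈ iv (N - a) T, (QW a k b (W m) n m).trace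
      = ∑ x ∈ iv N T, ∑ y ∈ iv N S, b x y ⬝ᵥ W (ix k y) x *ᵥ b x y := by
  have e1 : ∀ m, ∑ n ∈ iv (N - a) T, (QW a k b (W m) n m).trace
      = ((2 : ℝ) ^ a * 2 ^ k)⁻¹ * ∑ y ∈ iv k m, ∑ x ∈ iv N T, b x y ⬝ᵥ W (ix k y) x *ᵥ b x y := by
    intro m
    simp only [tr_QW1]
    rw [← Finset.mul_sum]
    congr 1
    rw [H258.sum_sub ha T fun _ x => ∑ y ∈ iv k m, b x y ⬝ᵥ W m x *ᵥ b x y, Finset.sum_comm]
    refine Finset.sum_congr rfl fun y hy => Finset.sum_congr rfl fun x _ => ?_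
    rw [mem_iv.1 hy]
  simp only [e1]
  rw [← Finset.mul_sum, H258.sum_sub hk S
    fun _ y => ∑ x ∈ iv N T, b x y ⬝ᵥ W (ix k y) x *ᵥ b x y, Finset.sum_comm, ← mul_assoc,
    mul_inv_cancel₀ (by positivity), one_mul]

/-- energy of a scalar function -/
def eA (N : ℕ) (R S : ℤ) (A : ℤ → ℤ → ℝ) : ℝ := ∑ z ∈ iv N R, ∑ y ∈ iv N S, A z y ^ 2

theorem sum_tr_PA {N a k : ℕ} (ha : a ≤ N) (hk : k ≤ N) (R S : ℤ) (A : ℤ → ℤ → ℝ) :
    (2 : ℝ) ^ a * 2 ^ k * ∑ m ∈ iv (N - k) S, ∑ n ∈ iv (N - a) R, (PA A k a n m).trace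
      = eA N R S A := by
  have h : ∀ n m, PA A k a n m = QW a k (un A) (fun _ => (1 : Matrix Unit Unit ℝ)⁻¹) n m :=
    fun n m => Xg_eq a k A n m
  simp only [h]
  rw [sum_tr_QW ha hk R S (un A) fun _ _ => (1 : Matrix Unit Unit ℝ)⁻¹, eA]
  refine Finset.sum_congr rfl fun z _ => Finset.sum_congr rfl fun y _ => ?_
  rw [inv_one, one_mulVec]
  simp only [dotProduct, Finset.univ_unique, Finset.sum_singleton, un, pow_two]

end energy

/-! ### The scalar side -/

/-- change of the scalar Gram matrices -/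
theorem PA_change {k : ℕ} {P : ℤ → ℤ → Prop} {A A' : ℤ → ℤ → ℝ}
    (h : ∀ z m, ¬ P z m → ∀ y ∈ iv k m, A' z y = A z y) (a : ℕ) (n m : ℤ) :
    PA A k a n m + PA (rst P k A') k a n m = PA A' k a n m + PA (rst P k A) k a n m := by
  have e : ∀ A : ℤ → ℤ → ℝ, PA A k a n m
      = QW a k (un A) (fun _ => (1 : Matrix Unit Unit ℝ)⁻¹) n m := fun A => Xg_eq a k A n m
  have er : ∀ A : ℤ → ℤ → ℝ, un (rst P k A) = rst P k (un A) := by
    intro A
    funext z y u
    unfold un rst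
    split_ifs <;> rfl
  rw [e, e, e, e, er, er]
  exact QW_change (fun z m hP y hy => by
    funext u
    exact h z m hP y hy) a _ n m

theorem PAs_split (A : ℤ → ℤ → ℝ) (k a : ℕ) (n m : ℤ) :
    PAs A k a n m + rad (Ix k) * PAs A k a n m * rad (Ix k)
      = P075.bd (PA A k a n (2 * m)) (PA A k a n (2 * m + 1)) := H588.Xs_split a k A n m

theorem PAs_psd (A : ℤ → ℤ → ℝ) (k a : ℕ) (n m : ℤ) : (PAs A k a n m).PosSemidef :=
  PA_psd A (k + 1) a n m

/-- own middle gain of the scalar side at the level `μ⁻¹` -/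
def gA (μ : ℝ) (J : ℕ) (A : ℤ → ℤ → ℝ) (k a : ℕ) (n m : ℤ) : ℝ :=
  (1 / 2) * H505.SC μ J (rad (Ix k)) (PAs A k a n m)

theorem gA_nonneg {μ : ℝ} (hμ : 0 < μ) (J : ℕ) (A : ℤ → ℤ → ℝ) (k a : ℕ) (n m : ℤ) :
    0 ≤ gA μ J A k a n m := by
  refine mul_nonneg (by norm_num) (Finset.sum_nonneg fun j _ => mul_nonneg (by positivity) ?_)
  have h := P075.phi_psd ((PAs_psd A k a n m).smul (show (0 : ℝ) ≤ μ / 4 ^ j by positivity))
  exact P075.trace_mul_nonneg h (P075.psd_conj_symm h P075.rad_symm)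

theorem SG_PA_mid {μ : ℝ} (hμ : 0 < μ) (J : ℕ) (A : ℤ → ℤ → ℝ) (k a : ℕ) (n m : ℤ) :
    SG μ J (PA A (k + 1) a n m) + gA μ J A k a n m
      ≤ (1 / 2) * (SG μ J (PA A k a n (2 * m)) + SG μ J (PA A k a n (2 * m + 1))) := by
  have e : SG μ J (PA A (k + 1) a n m) = SG μ J (PAs A k a n m) := rfl
  rw [e, gA]
  unfold SG H505.SC
  rw [Finset.mul_sum, ← Finset.sum_add_distrib, ← Finset.sum_add_distrib, Finset.mul_sum]
  refine Finset.sum_le_sum fun j _ => ?_
  have hi : (0 : ℝ) < μ / 4 ^ j := by positivity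
  have hs : (μ / 4 ^ j) • PAs A k a n m + rad (Ix k) * ((μ / 4 ^ j) • PAs A k a n m)
      * rad (Ix k) = P075.bd ((μ / 4 ^ j) • PA A k a n (2 * m))
        ((μ / 4 ^ j) • PA A k a n (2 * m + 1)) := by
    have := congrArg (fun X => (μ / 4 ^ j) • X) (PAs_split A k a n m)
    simp only [smul_add] at this
    rw [Matrix.mul_smul, Matrix.smul_mul, this, P075.bd, P075.bd, fromBlocks_smul]
    simp
  have h := P075.R.GX_col ((PAs_psd A k a n m).smul hi.le) ((PA_psd A k a n (2 * m)).smul hi.le)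
    ((PA_psd A k a n (2 * m + 1)).smul hi.le) hs
  have h2 := mul_le_mul_of_nonneg_left h (inv_pos.2 hi).le
  linarith

/-- **The scalar side as a stack of `TVst`**: time dependent `A k`, changes on the row pieces
`P k`. -/
theorem stkA {k₀ N : ℕ} (hkN : k₀ ≤ N) {R S : ℤ} {μ : ℝ} (hμ : 0 < μ) (J : ℕ)
    {A : ℕ → ℤ → ℤ → ℝ} {P : ℕ → ℤ → ℤ → Prop}
    (hP : ∀ k, k₀ ≤ k → k < N → ∀ z m, ¬ P k z m → ∀ y ∈ iv k m, A (k + 1) z y = A k z y)
    {EA : ℝ} (hE : ∀ k, k₀ ≤ k → k ≤ N → eA N R S (A k) ≤ EA)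
    (hD : ∑ k ∈ Ico k₀ N, eA N R S (rst (P k) k (A (k + 1))) ≤ EA) :
    H336.Stk k₀ N R S μ J (fun k a n m => PA (A k) k a n m)
      (fun k a n m => PA (A k) k a (2 * n) m) (fun k a n m => PA (A k) k a (2 * n + 1) m)
      (fun _ _ _ _ => 0) (fun _ _ _ _ => 0) (fun _ _ _ _ => 0)
      (fun k a n m => (1 / 2) * ((J : ℝ) + 1) *
        ((PA (rst (P k) k (A (k + 1))) k a n (2 * m)).trace
          + (PA (rst (P k) k (A (k + 1))) k a n (2 * m + 1)).trace))
      (fun k a n m => gA μ J (A (k + 1)) k a n m) EA 0 (((J : ℝ) + 1) * EA) where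
  hkN := hkN
  hμ := hμ
  psd := fun k a n m => PA_psd (A k) k a n m
  psd0 := fun k a n m => PA_psd (A k) k a _ m
  psd1 := fun k a n m => PA_psd (A k) k a _ m
  nγ := fun k a n m => gA_nonneg hμ J _ _ _ _ _
  par := fun k a n m _ h2 h3 => PA_out N k (A k) a h2 h3 n m
  ch0 := fun k a n m _ _ _ => (H585.PairCh.mv_zero _).symm
  ch1 := fun k a n m _ _ _ => (H585.PairCh.mv_zero _).symm
  out := fun k a n m _ h2 h3 => by
    have e : PA (A k) k (a + 1) n m
        = (1 / 2 : ℝ) • (PA (A k) k a (2 * n) m + PA (A k) k a (2 * n + 1) m) :=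
      PA_out N k (A k) a h2 h3 n m
    simp only [e, add_zero]
    unfold SG SD
    rw [Finset.mul_sum, ← Finset.sum_add_distrib, ← Finset.sum_add_distrib, Finset.mul_sum]
    refine Finset.sum_le_sum fun j _ => ?_
    have hi : (0 : ℝ) < μ / 4 ^ j := by positivity
    have k0 := (PA_psd (A k) k a (2 * n) m).smul hi.le
    have k1 := (PA_psd (A k) k a (2 * n + 1) m).smul hi.le
    have h := P075.R.GX_row k0 k1
    have hd := (P075.delt_psd k0 k1).trace_nonneg
    have e2 : (μ / 4 ^ j) • ((1 / 2 : ℝ) • (PA (A k) k a (2 * n) m + PA (A k) k a (2 * n + 1) m))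
        = (1 / 2 : ℝ) • ((μ / 4 ^ j) • PA (A k) k a (2 * n) m
          + (μ / 4 ^ j) • PA (A k) k a (2 * n + 1) m) := by module
    rw [e2]
    have h2 := mul_le_mul_of_nonneg_left h (inv_pos.2 hi).le
    have h3 := mul_nonneg (inv_pos.2 hi).le hd
    linarith
  lip := fun k a n m _ _ _ => by simp
  mid := fun k a n m h1 h2 h3 => by
    have hk : k < N := by omega
    have q := SG_PA_mid hμ J (A (k + 1)) k a n m
    have c : ∀ h, SG μ J (PA (A (k + 1)) k a n h) ≤ SG μ J (PA (A k) k a n h)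
        + ((J : ℝ) + 1) * (PA (rst (P k) k (A (k + 1))) k a n h).trace := by
      intro h
      have e := PA_change (hP k h1 hk) a n h
      have a1 := SG_mono hμ J (PA_psd (A (k + 1)) k a n h) (PA_psd (rst (P k) k (A k)) k a n h)
      rw [← e] at a1
      exact a1.trans (SG_add_le hμ J (PA_psd (A k) k a n h) (PA_psd _ k a n h))
    have c0 := c (2 * m)
    have c1 := c (2 * m + 1)
    linarith
  hH := fun k a h1 h2 h3 => by
    rw [sum_tr_PA h3 (h2.trans h3)]
    exact hE k h1 (h2.trans h3)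
  hQo := fun r => by simp
  hQm := fun r => by
    have h : ∀ k ∈ Ico k₀ (N - r), (2 : ℝ) ^ (k + 1 + r) * 2 ^ (k + 1)
        * ∑ m ∈ iv (N - (k + 1)) S, ∑ n ∈ iv (N - (k + 1 + r)) R,
          (1 / 2) * ((J : ℝ) + 1) * ((PA (rst (P k) k (A (k + 1))) k (k + 1 + r) n (2 * m)).trace
          + (PA (rst (P k) k (A (k + 1))) k (k + 1 + r) n (2 * m + 1)).trace)
        = ((J : ℝ) + 1) * eA N R S (rst (P k) k (A (k + 1))) := by
      intro k hk
      have hk' := mem_Ico.1 hk
      rw [← sum_tr_PA (show k + 1 + r ≤ N by omega) (show k ≤ N by omega) R S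
        (rst (P k) k (A (k + 1)))]
      have e : N - k = (N - (k + 1)) + 1 := by omega
      rw [e, H588.sum_iv_succ]
      simp only [← Finset.mul_sum, Finset.sum_add_distrib]
      rw [pow_succ 2 k]
      ring
    rw [Finset.sum_congr rfl h, ← Finset.mul_sum]
    refine mul_le_mul_of_nonneg_left ?_ (by positivity)
    refine le_trans (Finset.sum_le_sum_of_subset_of_nonneg
      (Ico_subset_Ico_right (Nat.sub_le N r)) fun k _ _ => ?_) hD
    exact Finset.sum_nonneg fun _ _ => Finset.sum_nonneg fun _ _ => sq_nonneg _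

end

end Vale.Agent.P141.H389
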