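import Vale.Agent.P141.H389.RawT

/-!
# Plane energy of the raw path `k ↦ PA (A (k + 1)) k`
-/

namespace Vale.Agent.P141.H389

open Finset Matrix Vale.Agent.P141.PL Vale.Agent.P141.PL.H103 Vale.Agent.P141.H103
open Vale.Agent.P075 (Ix val phi delt rad GX res)

noncomputable section

section mat

variable {n : Type*} [Fintype n] [DecidableEq n]

/-- one change of the raw slot: the square grows at most by `3 τ tr E` -/
theorem sq_change {τ : ℝ} {V V' E B : Matrix n n ℝ} (pV : V.PosSemidef) (pV' : V'.PosSemidef)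
    (pE : E.PosSemidef) (pB : B.PosSemidef) (cV : (τ • (1 : Matrix n n ℝ) - V).PosSemidef)
    (cE : (τ • (1 : Matrix n n ℝ) - E).PosSemidef) (eV : V + E = V' + B) :
    (V' * V').trace ≤ (V * V).trace + 3 * (τ * E.trace) := by
  have pVE : (V + E).PosSemidef := pV.add pE
  have le : ((V + E) - V').PosSemidef := by rw [eV, add_sub_cancel_left]; exact pB
  have a1 : (V' * V').trace ≤ (V' * (V + E)).trace := P075.trace_mul_le_right pV' le
  have a2 : (V' * (V + E)).trace ≤ ((V + E) * (V + E)).trace := P075.trace_mul_le_left pVE le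
  have a3 : ((V + E) * (V + E)).trace
      = (V * V).trace + 2 * (V * E).trace + (E * E).trace := by
    rw [Matrix.add_mul, Matrix.mul_add, Matrix.mul_add, trace_add, trace_add, trace_add,
      trace_mul_comm E V]
    ring
  have a4 : (V * E).trace ≤ τ * E.trace := by
    have := P075.trace_mul_le_left pE cV
    rwa [Matrix.smul_mul, Matrix.one_mul, trace_smul, smul_eq_mul] at this
  have a5 : (E * E).trace ≤ τ * E.trace := by
    have := P075.trace_mul_le_left pE cE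
    rwa [Matrix.smul_mul, Matrix.one_mul, trace_smul, smul_eq_mul] at this
  linarith

end mat

open Classical in
/-- the born part is below the cap of the new function -/
theorem rst_cap {τ : ℝ} {k a : ℕ} {P : ℤ → ℤ → Prop} {A : ℤ → ℤ → ℝ} {n m : ℤ}
    (h : (τ • (1 : Matrix (Ix k) (Ix k) ℝ) - PA A k a n m).PosSemidef) :
    (τ • (1 : Matrix (Ix k) (Ix k) ℝ) - PA (rst P k A) k a n m).PosSemidef := by
  set A0 : ℤ → ℤ → ℝ := fun z y => if P z (ix k y) then 0 else A z y with hA0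
  have h2 := PA_change (k := k) (P := P) (A := A0) (A' := A)
    (fun z m hP y hy => by rw [mem_iv] at hy; simp only [hA0, hy, hP, if_false]) a n m
  have h3 : (PA A0 k a n m).PosSemidef := PA_psd _ _ _ _ _
  have h4 : rst P k A0 = fun _ _ => (0 : ℝ) := by
    funext z y
    unfold rst
    by_cases hz : P z (ix k y)
    · simp only [hA0, hz, if_true]
    · simp only [hz, if_false]
  have h5 : PA (fun _ _ => (0 : ℝ)) k a n m = 0 := by
    have e : PA (fun _ _ => (0 : ℝ)) k a n m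
        = QW a k (un fun _ _ => (0 : ℝ)) (fun _ => (1 : Matrix Unit Unit ℝ)⁻¹) n m :=
      Xg_eq a k _ n m
    rw [e]
    ext j j'
    rw [QW, Matrix.zero_apply]
    refine mul_eq_zero_of_right _ (Finset.sum_eq_zero fun z hz => ?_)
    have : un (fun _ _ => (0 : ℝ)) z (2 ^ k * m + val k j) = 0 := rfl
    rw [this, zero_dotProduct]
  rw [h4, h5, add_zero] at h2
  have h6 : τ • (1 : Matrix (Ix k) (Ix k) ℝ) - PA (rst P k A) k a n m
      = (τ • 1 - PA A k a n m) + PA A0 k a n m := by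
    rw [← h2]
    abel
  rw [h6]
  exact h.add h3

/-- **Plane energy of the raw path.** -/
theorem TV_rawT {k₀ N : ℕ} (hkN : k₀ ≤ N) {R S : ℤ} {τ : ℝ} (hτ : 0 ≤ τ)
    {A : ℕ → ℤ → ℤ → ℝ} {P : ℕ → ℤ → ℤ → Prop}
    (hP : ∀ k, k₀ < k → k ≤ N → ∀ z m, ¬ P k z m → ∀ y ∈ iv k m, A (k + 1) z y = A k z y)
    (c0 : ∀ k a, k₀ < k → k ≤ a → a ≤ N → ∀ n m,
      (τ • (1 : Matrix (Ix k) (Ix k) ℝ) - PA (A k) k a n m).PosSemidef)
    (c1 : ∀ k a, k₀ ≤ k → k ≤ a → a ≤ N → ∀ n m,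
      (τ • (1 : Matrix (Ix k) (Ix k) ℝ) - PA (A (k + 1)) k a n m).PosSemidef)
    {EA : ℝ} (hE : eA N R S (A (k₀ + 1)) ≤ EA)
    (hD : ∑ k ∈ Ico k₀ N, eA N R S (rst (P (k + 1)) (k + 1) (A (k + 2))) ≤ EA) :
    TV k₀ N R S (fun k => PA (A (k + 1)) k) ≤ 308 * (τ * EA) := by
  have own : ∀ k, k₀ ≤ k → k < N → ∀ a, k + 1 ≤ a → a ≤ N →
      EW N R S (k + 1) (PA (A (k + 1 + 1)) (k + 1)) a ≤ EW N R S k (PA (A (k + 1)) k) a
        + 3 * (τ * eA N R S (rst (P (k + 1)) (k + 1) (A (k + 2)))) := by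
    intro k h1 h2 a h3 h4
    have o := PA_own h2 R S (A (k + 1)) a
    refine le_trans ?_ (add_le_add_left o _)
    have hs := sum_tr_PA h4 (show k + 1 ≤ N by omega) R S
      (rst (P (k + 1)) (k + 1) (A (k + 2)))
    have hsm : EW N R S (k + 1) (PA (A (k + 1 + 1)) (k + 1)) a
        ≤ (2 : ℝ) ^ a * 2 ^ (k + 1) * ∑ m ∈ iv (N - (k + 1)) S, ∑ n ∈ iv (N - a) R,
          ((PA (A (k + 1)) (k + 1) a n m * PA (A (k + 1)) (k + 1) a n m).trace
          + 3 * (τ * (PA (rst (P (k + 1)) (k + 1) (A (k + 2))) (k + 1) a n m).trace)) := by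
      unfold EW
      refine mul_le_mul_of_nonneg_left (Finset.sum_le_sum fun m _ =>
        Finset.sum_le_sum fun n _ => ?_) (by positivity)
      exact sq_change (PA_psd _ _ _ _ _) (PA_psd _ _ _ _ _) (PA_psd _ _ _ _ _)
        (PA_psd _ _ _ _ _) (c0 (k + 1) a (by omega) h3 h4 n m)
        (rst_cap (c1 (k + 1) a (by omega) h3 h4 n m))
        (PA_change (hP (k + 1) (by omega) (by omega)) a n m)
    refine hsm.trans (le_of_eq ?_)
    rw [← hs]
    unfold EW
    simp only [Finset.sum_add_distrib, ← Finset.mul_sum]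
    ring
  have t := H92.TV_exactE hkN (R := R) (S := S) (P := fun k => PA (A (k + 1)) k)
    (d := fun k => 3 * (τ * eA N R S (rst (P (k + 1)) (k + 1) (A (k + 2)))))
    (fun k => mul_nonneg (by norm_num) (mul_nonneg hτ (eA_nonneg _ _ _ _)))
    (fun k _ _ => PA_out N k (A (k + 1))) (fun k a n m => PA_symm (A (k + 1)) k a n m) own
  have st : EW N R S k₀ (PA (A (k₀ + 1)) k₀) k₀ ≤ τ * EA := by
    have hs := sum_tr_PA hkN hkN R S (A (k₀ + 1))
    have h1 : EW N R S k₀ (PA (A (k₀ + 1)) k₀) k₀ ≤ (2 : ℝ) ^ k₀ * 2 ^ k₀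
        * ∑ m ∈ iv (N - k₀) S, ∑ n ∈ iv (N - k₀) R, τ * (PA (A (k₀ + 1)) k₀ k₀ n m).trace := by
      unfold EW
      refine mul_le_mul_of_nonneg_left (Finset.sum_le_sum fun m _ =>
        Finset.sum_le_sum fun n _ => ?_) (by positivity)
      have := P075.trace_mul_le_left (PA_psd (A (k₀ + 1)) k₀ k₀ n m)
        (c1 k₀ k₀ le_rfl le_rfl hkN n m)
      rwa [Matrix.smul_mul, Matrix.one_mul, trace_smul, smul_eq_mul] at this
    refine h1.trans ?_
    have h2 : (2 : ℝ) ^ k₀ * 2 ^ k₀ * ∑ m ∈ iv (N - k₀) S, ∑ n ∈ iv (N - k₀) R,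
        τ * (PA (A (k₀ + 1)) k₀ k₀ n m).trace = τ * eA N R S (A (k₀ + 1)) := by
      rw [← hs]
      simp only [← Finset.mul_sum]
      ring
    rw [h2]
    exact mul_le_mul_of_nonneg_left hE hτ
  have e2 : ∑ k ∈ Ico k₀ N, 3 * (τ * eA N R S (rst (P (k + 1)) (k + 1) (A (k + 2))))
      ≤ 3 * (τ * EA) := by
    rw [← Finset.mul_sum, ← Finset.mul_sum]
    exact mul_le_mul_of_nonneg_left (mul_le_mul_of_nonneg_left hD hτ) (by norm_num)
  linarith

end

end Vale.Agent.P141.H389
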