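import Vale.Agent.P141.H389.PairAC
import Vale.Agent.P141.H258.Wt
import Vale.Agent.P141.H28.RidgeW

/-!
# The pair of a raw scalar family against a moving weighted family, real letters

Weight form: `W x k m` (label matrices) with children `W + Nn ± M` on the two halves of the middle
cell.  The Gram matrices `QW a k b (W · k m) n m` are written as `cᵀ Θ c` with `Θ` block diagonal
over the rows of the outer cell.
-/

namespace Vale.Agent.P141.H389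

open Finset Matrix Vale.Agent.P141.PL Vale.Agent.P141.PL.H103 Vale.Agent.P141.H103
open Vale.Agent.P075 (Ix val phi delt rad)
open Vale.Agent.P141.H585.PairCh (phs dls)

noncomputable section

variable {κ : Type*} [Fintype κ] [DecidableEq κ]

/-! ### The stack -/

/-- normalised samples of `b` on (outer cell `n` of scale `a`) × (middle cell `m` of scale `k`) -/
def rws (b : ℤ → ℤ → κ → ℝ) (a k : ℕ) (n m : ℤ) : Matrix (κ × Ix a) (Ix k) ℝ := fun i j =>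
  (√((2 : ℝ) ^ a * 2 ^ k))⁻¹ * b (2 ^ a * n + val a i.2) (2 ^ k * m + val k j) i.1

/-- block diagonal weight -/
def blW (a : ℕ) (n : ℤ) (W : ℤ → Matrix κ κ ℝ) : Matrix (κ × Ix a) (κ × Ix a) ℝ :=
  blockDiagonal fun i : Ix a => W (2 ^ a * n + val a i)

omit [DecidableEq κ] in
theorem quad_rws (b : ℤ → ℤ → κ → ℝ) (a k : ℕ) (n m m' : ℤ) (W : ℤ → Matrix κ κ ℝ) (j j' : Ix k) :
    ((rws b a k n m)ᵀ * (blW a n W) * rws b a k n m') j j'
      = ((2 : ℝ) ^ a * 2 ^ k)⁻¹ * ∑ x ∈ iv a n,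
        b x (2 ^ k * m + val k j) ⬝ᵥ W x *ᵥ b x (2 ^ k * m' + val k j') := by
  have hs : (√((2 : ℝ) ^ a * 2 ^ k))⁻¹ * (√((2 : ℝ) ^ a * 2 ^ k))⁻¹ = ((2 : ℝ) ^ a * 2 ^ k)⁻¹ := by
    rw [← mul_inv, Real.mul_self_sqrt (by positivity)]
  rw [H588.sum_iv, ← hs, Matrix.mul_assoc, mul_apply, Fintype.sum_prod_type_right, Finset.mul_sum]
  refine Finset.sum_congr rfl fun i _ => ?_
  simp only [transpose_apply, rws, mul_apply, blW, blockDiagonal_apply, Fintype.sum_prod_type_right,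
    dotProduct, mulVec, Finset.mul_sum]
  refine Finset.sum_congr rfl fun l _ => ?_
  rw [Finset.sum_eq_single i]
  · refine Finset.sum_congr rfl fun l' _ => ?_
    rw [if_pos rfl]
    ring
  · intro i' _ hne
    refine Finset.sum_eq_zero fun l' _ => ?_
    rw [if_neg (Ne.symm hne)]
    ring
  · intro h
    exact absurd (Finset.mem_univ _) h

omit [DecidableEq κ] in
theorem QW_eq (b : ℤ → ℤ → κ → ℝ) (a k : ℕ) (n m : ℤ) (W : ℤ → Matrix κ κ ℝ) :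
    QW a k b W n m = (rws b a k n m)ᵀ * (blW a n W) * rws b a k n m := by
  ext j j'
  rw [quad_rws, QW]

/-- the parent Gram matrix on the two halves of the middle cell -/
def QWs (a k : ℕ) (b : ℤ → ℤ → κ → ℝ) (W : ℤ → Matrix κ κ ℝ) (n m : ℤ) :
    Matrix (Ix k ⊕ Ix k) (Ix k ⊕ Ix k) ℝ := QW a (k + 1) b W n m

/-- the samples on the two halves -/
def cs (b : ℤ → ℤ → κ → ℝ) (a k : ℕ) (n m : ℤ) : Matrix (κ × Ix a) (Ix k ⊕ Ix k) ℝ :=
  fromCols (rws b a k n (2 * m)) (rws b a k n (2 * m + 1))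

omit [DecidableEq κ] in
/-- the parent Gram matrix through the halves -/
theorem QWs_eq (b : ℤ → ℤ → κ → ℝ) (a k : ℕ) (n m : ℤ) (W : ℤ → Matrix κ κ ℝ) :
    QWs a k b W n m = (1 / 2 : ℝ) • ((cs b a k n m)ᵀ * blW a n W * cs b a k n m) := by
  have hh := H588.half_pow a k
  have e0 : ∀ j : Ix k, (2 : ℤ) ^ (k + 1) * m + (val k j : ℕ) = 2 ^ k * (2 * m) + val k j := by
    intro j; ring
  have e1 : ∀ j : Ix k, (2 : ℤ) ^ (k + 1) * m + ((2 ^ k + val k j : ℕ) : ℤ)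
      = 2 ^ k * (2 * m + 1) + val k j := by
    intro j; push_cast; ring
  ext j j'
  rcases j with j | j <;> rcases j' with j' | j'
  · have h1 : QWs a k b W n m (Sum.inl j) (Sum.inl j') = ((2 : ℝ) ^ a * 2 ^ (k + 1))⁻¹ *
        ∑ x ∈ iv a n, b x (2 ^ (k + 1) * m + (val k j : ℕ)) ⬝ᵥ W x *ᵥ
          b x (2 ^ (k + 1) * m + (val k j' : ℕ)) := rfl
    have h2 : ((1 / 2 : ℝ) • ((cs b a k n m)ᵀ * blW a n W * cs b a k n m)) (Sum.inl j) (Sum.inl j')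
        = (1 / 2 : ℝ) * ((rws b a k n (2 * m))ᵀ * blW a n W * rws b a k n (2 * m)) j j' := rfl
    rw [h1, h2, quad_rws, hh, e0, e0, mul_assoc]
  · have h1 : QWs a k b W n m (Sum.inl j) (Sum.inr j') = ((2 : ℝ) ^ a * 2 ^ (k + 1))⁻¹ *
        ∑ x ∈ iv a n, b x (2 ^ (k + 1) * m + (val k j : ℕ)) ⬝ᵥ W x *ᵥ
          b x (2 ^ (k + 1) * m + ((2 ^ k + val k j' : ℕ) : ℤ)) := rfl
    have h2 : ((1 / 2 : ℝ) • ((cs b a k n m)ᵀ * blW a n W * cs b a k n m)) (Sum.inl j) (Sum.inr j')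
        = (1 / 2 : ℝ) * ((rws b a k n (2 * m))ᵀ * blW a n W * rws b a k n (2 * m + 1)) j j' := rfl
    rw [h1, h2, quad_rws, hh, e0, e1, mul_assoc]
  · have h1 : QWs a k b W n m (Sum.inr j) (Sum.inl j') = ((2 : ℝ) ^ a * 2 ^ (k + 1))⁻¹ *
        ∑ x ∈ iv a n, b x (2 ^ (k + 1) * m + ((2 ^ k + val k j : ℕ) : ℤ)) ⬝ᵥ W x *ᵥ
          b x (2 ^ (k + 1) * m + (val k j' : ℕ)) := rfl
    have h2 : ((1 / 2 : ℝ) • ((cs b a k n m)ᵀ * blW a n W * cs b a k n m)) (Sum.inr j) (Sum.inl j')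
        = (1 / 2 : ℝ) * ((rws b a k n (2 * m + 1))ᵀ * blW a n W * rws b a k n (2 * m)) j j' := rfl
    rw [h1, h2, quad_rws, hh, e0, e1, mul_assoc]
  · have h1 : QWs a k b W n m (Sum.inr j) (Sum.inr j') = ((2 : ℝ) ^ a * 2 ^ (k + 1))⁻¹ *
        ∑ x ∈ iv a n, b x (2 ^ (k + 1) * m + ((2 ^ k + val k j : ℕ) : ℤ)) ⬝ᵥ W x *ᵥ
          b x (2 ^ (k + 1) * m + ((2 ^ k + val k j' : ℕ) : ℤ)) := rfl
    have h2 : ((1 / 2 : ℝ) • ((cs b a k n m)ᵀ * blW a n W * cs b a k n m)) (Sum.inr j) (Sum.inr j')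
        = (1 / 2 : ℝ) * ((rws b a k n (2 * m + 1))ᵀ * blW a n W * rws b a k n (2 * m + 1)) j j' :=
      rfl
    rw [h1, h2, quad_rws, hh, e1, e1, mul_assoc]

/-! ### Block diagonal matrices -/

section bl

variable {o : Type*} [Fintype o] [DecidableEq o]

theorem bd_form (M : o → Matrix κ κ ℝ) (u v : κ × o → ℝ) :
    u ⬝ᵥ (blockDiagonal M *ᵥ v) = ∑ i, (fun J => u (J, i)) ⬝ᵥ (M i *ᵥ fun J => v (J, i)) := by
  simp only [dotProduct, mulVec, Fintype.sum_prod_type_right, blockDiagonal_apply]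
  refine Finset.sum_congr rfl fun i _ => Finset.sum_congr rfl fun l _ => ?_
  congr 1
  rw [Finset.sum_eq_single i]
  · simp
  · intro i' _ hne
    simp [Ne.symm hne]
  · simp

theorem bd_posDef {M : o → Matrix κ κ ℝ} (h : ∀ i, (M i).PosDef) : (blockDiagonal M).PosDef := by
  refine Matrix.PosDef.of_dotProduct_mulVec_pos ?_ fun v hv => ?_
  · rw [Matrix.IsHermitian, Matrix.blockDiagonal_conjTranspose]
    congr 1
    funext S
    exact (h S).isHermitian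
  · rw [star_trivial, bd_form]
    obtain ⟨⟨I, S⟩, hI⟩ := Function.ne_iff.1 hv
    refine Finset.sum_pos' (fun S _ => ?_) ⟨S, Finset.mem_univ _, ?_⟩
    · have := (h S).posSemidef.dotProduct_mulVec_nonneg (fun J => v (J, S))
      rwa [star_trivial] at this
    · have := (h S).dotProduct_mulVec_pos (x := fun J => v (J, S)) fun h0 => hI (congrFun h0 I)
      rwa [star_trivial] at this

theorem bd_psd {M : o → Matrix κ κ ℝ} (h : ∀ i, (M i).PosSemidef) :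
    (blockDiagonal M).PosSemidef := by
  refine Matrix.PosSemidef.of_dotProduct_mulVec_nonneg ?_ fun v => ?_
  · rw [Matrix.IsHermitian, Matrix.blockDiagonal_conjTranspose]
    congr 1
    funext S
    exact (h S).isHermitian
  · rw [star_trivial, bd_form]
    refine Finset.sum_nonneg fun S _ => ?_
    have := (h S).dotProduct_mulVec_nonneg (fun J => v (J, S))
    rwa [star_trivial] at this

theorem bd_inv {M : o → Matrix κ κ ℝ} (h : ∀ i, (M i).PosDef) :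
    (blockDiagonal M)⁻¹ = blockDiagonal fun i => (M i)⁻¹ := by
  apply Matrix.inv_eq_right_inv
  rw [← blockDiagonal_mul]
  have : (fun k => M k * (M k)⁻¹) = 1 := by
    funext k
    exact Matrix.mul_nonsing_inv _ ((Matrix.isUnit_iff_isUnit_det _).1 (h k).isUnit)
  rw [this, blockDiagonal_one]

end bl

/-! ### Traces of the error terms -/

/-- trace of a quadratic form of the stack: a sum over the points of the rectangle -/
theorem tr_quad (b : ℤ → ℤ → κ → ℝ) (a k : ℕ) (n m : ℤ) (L : ℤ → Matrix κ κ ℝ) :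
    ((rws b a k n m)ᵀ * blW a n L * rws b a k n m).trace
      = ((2 : ℝ) ^ a * 2 ^ k)⁻¹ * ∑ x ∈ iv a n, ∑ y ∈ iv k m, b x y ⬝ᵥ L x *ᵥ b x y := by
  rw [trace]
  simp only [diag_apply, quad_rws]
  rw [← Finset.mul_sum, Finset.sum_comm]
  congr 1
  refine Finset.sum_congr rfl fun x _ => ?_
  rw [H588.sum_iv]

/-! ### The weight field -/

/-- weights `W` with children `W + Nn ± M` on the two halves of the middle cell; `Nm` bounds the
negative part of `Nn` -/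
structure Wf (N : ℕ) (W Nn M Nm : ℤ → ℕ → ℤ → Matrix κ κ ℝ) : Prop where
  pd : ∀ x k m, (W x k m).PosDef
  sN : ∀ x k m, (Nn x k m)ᵀ = Nn x k m
  sM : ∀ x k m, (M x k m)ᵀ = M x k m
  pNm : ∀ x k m, (Nm x k m).PosSemidef
  pN : ∀ x k m, (Nn x k m + Nm x k m).PosSemidef
  left : ∀ x k m, k < N → W x k (2 * m) = W x (k + 1) m + Nn x (k + 1) m + M x (k + 1) m
  right : ∀ x k m, k < N → W x k (2 * m + 1) = W x (k + 1) m + Nn x (k + 1) m - M x (k + 1) m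

/-- the family of the slot `b` with the weight field `W` -/
def XW (b : ℤ → ℤ → κ → ℝ) (W : ℤ → ℕ → ℤ → Matrix κ κ ℝ) (k : ℕ) :
    ℕ → ℤ → ℤ → Matrix (Ix k) (Ix k) ℝ := fun a n m => QW a k b (fun x => W x k m) n m

/-- the same on the two halves of a cell of scale `k + 1` -/
def XWs (b : ℤ → ℤ → κ → ℝ) (W : ℤ → ℕ → ℤ → Matrix κ κ ℝ) (k a : ℕ) (n m : ℤ) :
    Matrix (Ix k ⊕ Ix k) (Ix k ⊕ Ix k) ℝ := XW b W (k + 1) a n m

/-- the raw scalar family on the two halves -/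
def PAs (A : ℤ → ℤ → ℝ) (k a : ℕ) (n m : ℤ) : Matrix (Ix k ⊕ Ix k) (Ix k ⊕ Ix k) ℝ :=
  PA A (k + 1) a n m

omit [DecidableEq κ] in
theorem XW_out (N k : ℕ) (b : ℤ → ℤ → κ → ℝ) (W : ℤ → ℕ → ℤ → Matrix κ κ ℝ) :
    OutM N k (XW b W k) := QW_out N k b fun m x => W x k m

theorem XW_psd {N : ℕ} {W Nn M Nm : ℤ → ℕ → ℤ → Matrix κ κ ℝ} (h : Wf N W Nn M Nm)
    (b : ℤ → ℤ → κ → ℝ) (k a : ℕ) (n m : ℤ) : (XW b W k a n m).PosSemidef :=
  QW_psd (fun x => (h.pd x k m).posSemidef) n m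

/-- change of the weight on the half cell `m` of scale `k` -/
def dW (W : ℤ → ℕ → ℤ → Matrix κ κ ℝ) (x : ℤ) (k : ℕ) (m : ℤ) : Matrix κ κ ℝ :=
  W x k m - W x (k + 1) (m / 2)

/-- gain of the pair -/
def gAC (A : ℤ → ℤ → ℝ) (b : ℤ → ℤ → κ → ℝ) (W : ℤ → ℕ → ℤ → Matrix κ κ ℝ) (s : ℝ) (k : ℕ)
    (aA aC : ℕ) (n n' m : ℤ) : ℝ :=
  (PAs A k aA n m * (rad (Ix k) * phs s (XWs b W k aC n' m) * rad (Ix k))).trace

/-- own middle defect -/
def gC (b : ℤ → ℤ → κ → ℝ) (W : ℤ → ℕ → ℤ → Matrix κ κ ℝ) (s : ℝ) (k aC : ℕ) (n' m : ℤ) : ℝ :=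
  (phs s (XWs b W k aC n' m) * (rad (Ix k) * phs s (XWs b W k aC n' m) * rad (Ix k))).trace

/-- cost of the motion at one cell -/
def qAC (b : ℤ → ℤ → κ → ℝ) (W M Nm : ℤ → ℕ → ℤ → Matrix κ κ ℝ) (k aC : ℕ) (n' m : ℤ) : ℝ :=
  ((2 : ℝ) ^ aC * 2 ^ k)⁻¹ * ∑ x ∈ iv aC n', ∑ y ∈ iv (k + 1) m,
    (b x y ⬝ᵥ (M x (k + 1) m * (W x (k + 1) m)⁻¹ * M x (k + 1) m) *ᵥ b x y
    + (1 / 2) * (b x y ⬝ᵥ (dW W x k (ix k y) * (W x k (ix k y))⁻¹ * dW W x k (ix k y)) *ᵥ b x y)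
    + (1 / 2) * (b x y ⬝ᵥ Nm x (k + 1) m *ᵥ b x y))

omit [Fintype κ] [DecidableEq κ] in
theorem sum_iv_succ' (k : ℕ) (m : ℤ) (f : ℤ → ℝ) :
    ∑ y ∈ iv (k + 1) m, f y = ∑ y ∈ iv k (2 * m), f y + ∑ y ∈ iv k (2 * m + 1), f y :=
  sum_iv_two k m f

/-! ### The node inequality -/

omit [Fintype κ] in
theorem blW_one (a : ℕ) (n : ℤ) : blW a n (fun _ => (1 : Matrix κ κ ℝ)) = 1 := by
  unfold blW
  exact blockDiagonal_one

theorem PA_rws (A : ℤ → ℤ → ℝ) (k a : ℕ) (n m : ℤ) :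
    PA A k a n m = (rws (un A) a k n m)ᵀ * rws (un A) a k n m := by
  have h1 : PA A k a n m = QW a k (un A) (fun _ => (1 : Matrix Unit Unit ℝ)⁻¹) n m := Xg_eq a k A n m
  rw [h1, QW_eq, inv_one, blW_one, Matrix.mul_one]

theorem PAs_cs (A : ℤ → ℤ → ℝ) (k a : ℕ) (n m : ℤ) :
    PAs A k a n m = (1 / 2 : ℝ) • ((cs (un A) a k n m)ᵀ * cs (un A) a k n m) := by
  have h1 : PAs A k a n m = QWs a k (un A) (fun _ => (1 : Matrix Unit Unit ℝ)⁻¹) n m :=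
    Xg_eq a (k + 1) A n m
  rw [h1, QWs_eq, inv_one, blW_one, Matrix.mul_one]

omit [Fintype κ] [DecidableEq κ] in
theorem dW_left {N : ℕ} {W Nn M Nm : ℤ → ℕ → ℤ → Matrix κ κ ℝ} (h : Wf N W Nn M Nm) {k : ℕ}
    (hk : k < N) (x m : ℤ) : dW W x k (2 * m) = Nn x (k + 1) m + M x (k + 1) m := by
  have e : 2 * m / 2 = m := by omega
  rw [dW, e, h.left x k m hk]
  abel

omit [Fintype κ] [DecidableEq κ] in
theorem dW_right {N : ℕ} {W Nn M Nm : ℤ → ℕ → ℤ → Matrix κ κ ℝ} (h : Wf N W Nn M Nm) {k : ℕ}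
    (hk : k < N) (x m : ℤ) : dW W x k (2 * m + 1) = Nn x (k + 1) m - M x (k + 1) m := by
  have e : (2 * m + 1) / 2 = m := by omega
  rw [dW, e, h.right x k m hk]
  abel

/-- the cost as traces -/
theorem qAC_eq {N : ℕ} {W Nn M Nm : ℤ → ℕ → ℤ → Matrix κ κ ℝ} (h : Wf N W Nn M Nm) {k : ℕ}
    (hk : k < N) (b : ℤ → ℤ → κ → ℝ) (aC : ℕ) (n' m : ℤ) :
    (((rws b aC k n' (2 * m))ᵀ * blW aC n' (fun x => M x (k + 1) m * (W x (k + 1) m)⁻¹
          * M x (k + 1) m) * rws b aC k n' (2 * m)).trace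
      + ((rws b aC k n' (2 * m + 1))ᵀ * blW aC n' (fun x => M x (k + 1) m * (W x (k + 1) m)⁻¹
          * M x (k + 1) m) * rws b aC k n' (2 * m + 1)).trace)
    + (1 / 2) * (((rws b aC k n' (2 * m))ᵀ * blW aC n' (fun x =>
          (Nn x (k + 1) m + M x (k + 1) m) * (W x k (2 * m))⁻¹ * (Nn x (k + 1) m + M x (k + 1) m))
          * rws b aC k n' (2 * m)).trace
      + ((rws b aC k n' (2 * m + 1))ᵀ * blW aC n' (fun x =>
          (Nn x (k + 1) m - M x (k + 1) m) * (W x k (2 * m + 1))⁻¹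
            * (Nn x (k + 1) m - M x (k + 1) m)) * rws b aC k n' (2 * m + 1)).trace)
    + (1 / 2) * (((rws b aC k n' (2 * m))ᵀ * blW aC n' (fun x => Nm x (k + 1) m)
          * rws b aC k n' (2 * m)).trace
      + ((rws b aC k n' (2 * m + 1))ᵀ * blW aC n' (fun x => Nm x (k + 1) m)
          * rws b aC k n' (2 * m + 1)).trace)
    = qAC b W M Nm k aC n' m := by
  rw [tr_quad, tr_quad, tr_quad, tr_quad, tr_quad, tr_quad, qAC]
  simp only [sum_iv_two k m]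
  have e0 : ∀ x, ∑ y ∈ iv k (2 * m), (b x y ⬝ᵥ (M x (k + 1) m * (W x (k + 1) m)⁻¹ * M x (k + 1) m)
        *ᵥ b x y
      + (1 / 2) * (b x y ⬝ᵥ (dW W x k (ix k y) * (W x k (ix k y))⁻¹ * dW W x k (ix k y)) *ᵥ b x y)
      + (1 / 2) * (b x y ⬝ᵥ Nm x (k + 1) m *ᵥ b x y))
      = ∑ y ∈ iv k (2 * m), b x y ⬝ᵥ (M x (k + 1) m * (W x (k + 1) m)⁻¹ * M x (k + 1) m) *ᵥ b x y
        + (1 / 2) * ∑ y ∈ iv k (2 * m), b x y ⬝ᵥ ((Nn x (k + 1) m + M x (k + 1) m)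
          * (W x k (2 * m))⁻¹ * (Nn x (k + 1) m + M x (k + 1) m)) *ᵥ b x y
        + (1 / 2) * ∑ y ∈ iv k (2 * m), b x y ⬝ᵥ Nm x (k + 1) m *ᵥ b x y := by
    intro x
    rw [Finset.mul_sum, Finset.mul_sum, ← Finset.sum_add_distrib, ← Finset.sum_add_distrib]
    refine Finset.sum_congr rfl fun y hy => ?_
    rw [mem_iv.1 hy, dW_left h hk]
  have e1 : ∀ x, ∑ y ∈ iv k (2 * m + 1), (b x y ⬝ᵥ (M x (k + 1) m * (W x (k + 1) m)⁻¹
        * M x (k + 1) m) *ᵥ b x y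
      + (1 / 2) * (b x y ⬝ᵥ (dW W x k (ix k y) * (W x k (ix k y))⁻¹ * dW W x k (ix k y)) *ᵥ b x y)
      + (1 / 2) * (b x y ⬝ᵥ Nm x (k + 1) m *ᵥ b x y))
      = ∑ y ∈ iv k (2 * m + 1), b x y ⬝ᵥ (M x (k + 1) m * (W x (k + 1) m)⁻¹ * M x (k + 1) m)
          *ᵥ b x y
        + (1 / 2) * ∑ y ∈ iv k (2 * m + 1), b x y ⬝ᵥ ((Nn x (k + 1) m - M x (k + 1) m)
          * (W x k (2 * m + 1))⁻¹ * (Nn x (k + 1) m - M x (k + 1) m)) *ᵥ b x y
        + (1 / 2) * ∑ y ∈ iv k (2 * m + 1), b x y ⬝ᵥ Nm x (k + 1) m *ᵥ b x y := by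
    intro x
    rw [Finset.mul_sum, Finset.mul_sum, ← Finset.sum_add_distrib, ← Finset.sum_add_distrib]
    refine Finset.sum_congr rfl fun y hy => ?_
    rw [mem_iv.1 hy, dW_right h hk]
  simp only [e0, e1, Finset.sum_add_distrib, ← Finset.mul_sum]
  ring

theorem blW_posDef {W : ℤ → Matrix κ κ ℝ} (h : ∀ x, (W x).PosDef) (a : ℕ) (n : ℤ) :
    (blW a n W).PosDef := bd_posDef fun _ => h _

theorem blW_psd {W : ℤ → Matrix κ κ ℝ} (h : ∀ x, (W x).PosSemidef) (a : ℕ) (n : ℤ) :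
    (blW a n W).PosSemidef := bd_psd fun _ => h _

omit [Fintype κ] [DecidableEq κ] in
theorem blW_add (V W : ℤ → Matrix κ κ ℝ) (a : ℕ) (n : ℤ) :
    blW a n (fun x => V x + W x) = blW a n V + blW a n W := by
  unfold blW
  rw [← blockDiagonal_add]
  rfl

omit [Fintype κ] [DecidableEq κ] in
theorem blW_sub (V W : ℤ → Matrix κ κ ℝ) (a : ℕ) (n : ℤ) :
    blW a n (fun x => V x - W x) = blW a n V - blW a n W := by
  unfold blW
  rw [← blockDiagonal_sub]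
  rfl

theorem blW_mul (V W : ℤ → Matrix κ κ ℝ) (a : ℕ) (n : ℤ) :
    blW a n (fun x => V x * W x) = blW a n V * blW a n W := by
  unfold blW
  rw [← blockDiagonal_mul]

theorem blW_inv {W : ℤ → Matrix κ κ ℝ} (h : ∀ x, (W x).PosDef) (a : ℕ) (n : ℤ) :
    blW a n (fun x => (W x)⁻¹) = (blW a n W)⁻¹ := by
  unfold blW
  rw [bd_inv fun _ => h _]

omit [Fintype κ] [DecidableEq κ] in
theorem blW_symm {W : ℤ → Matrix κ κ ℝ} (h : ∀ x, (W x)ᵀ = W x) (a : ℕ) (n : ℤ) :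
    (blW a n W)ᵀ = blW a n W := by
  unfold blW
  rw [blockDiagonal_transpose]
  congr 1
  funext i
  exact h _

omit [Fintype κ] [DecidableEq κ] in
/-- `ps` of `RidgeW` is `phs` of `PairCh` -/
theorem ps_eq {n : Type*} [Fintype n] [DecidableEq n] (s : ℝ) (X : Matrix n n ℝ) :
    H28.ps s⁻¹ X = phs s X := by
  rw [H28.ps, phs, inv_inv]

theorem blW_mul_inv {W : ℤ → Matrix κ κ ℝ} (h : ∀ x, (W x).PosDef) (a : ℕ) (n : ℤ) :
    blW a n W * blW a n (fun x => (W x)⁻¹) = 1 := by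
  rw [← blW_mul, ← blW_one a n]
  congr 1
  funext x
  exact Matrix.mul_nonsing_inv _ ((Matrix.isUnit_iff_isUnit_det _).1 (h x).isUnit)

/-- **middle inequality with gain**, raw partner -/
theorem nodeAC {N : ℕ} {W Nn M Nm : ℤ → ℕ → ℤ → Matrix κ κ ℝ} (h : Wf N W Nn M Nm) {k : ℕ}
    (hk : k < N) {τ s : ℝ} (hs : 0 < s) (hτ : 0 ≤ τ) (A : ℤ → ℤ → ℝ) (b : ℤ → ℤ → κ → ℝ) (aA aC : ℕ)
    (n n' m : ℤ)
    (hA0 : (τ • (1 : Matrix (Ix k) (Ix k) ℝ) - PA A k aA n (2 * m)).PosSemidef)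
    (hA1 : (τ • (1 : Matrix (Ix k) (Ix k) ℝ) - PA A k aA n (2 * m + 1)).PosSemidef) :
    (PA A (k + 1) aA n m * phs s (XW b W (k + 1) aC n' m)).trace
        + (1 / 4) * gAC A b W s k aA aC n n' m
      ≤ (1 / 2) * ((PA A k aA n (2 * m) * phs s (XW b W k aC n' (2 * m))).trace
          + (PA A k aA n (2 * m + 1) * phs s (XW b W k aC n' (2 * m + 1))).trace)
        + τ * (s⁻¹ / 2 * gC b W s k aC n' m + qAC b W M Nm k aC n' m) := by
  rw [PA_rws] at hA0 hA1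
  have H := H28.mid_weight (ν := s⁻¹) (τ := τ) (inv_pos.2 hs) hτ
    (Θ := blW aC n' (fun x => W x (k + 1) m)) (Θ₀ := blW aC n' (fun x => W x k (2 * m)))
    (Θ₁ := blW aC n' (fun x => W x k (2 * m + 1))) (T := blW aC n' (fun x => (W x (k + 1) m)⁻¹))
    (T₀ := blW aC n' (fun x => (W x k (2 * m))⁻¹))
    (T₁ := blW aC n' (fun x => (W x k (2 * m + 1))⁻¹))
    (N := blW aC n' (fun x => Nn x (k + 1) m))
    (M := blW aC n' (fun x => M x (k + 1) m)) (Nm := blW aC n' (fun x => Nm x (k + 1) m))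
    (blW_psd (fun x => (h.pd x _ _).posSemidef) _ _)
    (blW_psd (fun x => (h.pd x _ _).posSemidef) _ _)
    (blW_psd (fun x => (h.pd x _ _).posSemidef) _ _) (blW_mul_inv (fun x => h.pd x _ _) _ _)
    (blW_mul_inv (fun x => h.pd x _ _) _ _) (blW_mul_inv (fun x => h.pd x _ _) _ _)
    (blW_psd (fun x => (h.pd x _ _).inv.posSemidef) _ _)
    (blW_psd (fun x => (h.pd x _ _).inv.posSemidef) _ _)
    (blW_psd (fun x => (h.pd x _ _).inv.posSemidef) _ _)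
    (by rw [← blW_add, ← blW_add]; simp only [h.left _ k m hk])
    (by rw [← blW_add, ← blW_sub]; simp only [h.right _ k m hk])
    (blW_symm (fun x => h.sN x _ _) _ _) (blW_symm (fun x => h.sM x _ _) _ _)
    (blW_psd (fun x => h.pNm x _ _) _ _)
    (by rw [← blW_add]; exact blW_psd (fun x => h.pN x _ _) _ _) hA0 hA1
    (rws b aC k n' (2 * m)) (rws b aC k n' (2 * m + 1)) (QWs_eq b aC k n' m _)
    (PAs_cs A k aA n m)
  rw [← blW_add, ← blW_sub, ← blW_mul, ← blW_mul, ← blW_mul, ← blW_mul, ← blW_mul,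
    ← blW_mul, ← PA_rws, ← PA_rws, ← QW_eq, ← QW_eq] at H
  simp only [ps_eq] at H
  have q := qAC_eq h hk b aC n' m
  have p2 : QWs aC k b (fun x => W x (k + 1) m) n' m = XWs b W k aC n' m := rfl
  rw [p2] at H
  have f1 : (PA A (k + 1) aA n m * phs s (XW b W (k + 1) aC n' m)).trace
      = (PAs A k aA n m * phs s (XWs b W k aC n' m)).trace := rfl
  rw [f1, gAC, gC]
  unfold XW
  rw [← q]
  linarith

/-! ### Sums over the plane -/

omit [Fintype κ] [DecidableEq κ] in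
/-- a plane sum of a nonnegative function of `(n', m)` -/
theorem GW_le_sum (N : ℕ) (R S T : ℤ) (k : ℕ) (c : ℤ) {w : ℤ → ℤ → ℝ} (w0 : ∀ n m, 0 ≤ w n m) :
    GW N R S T k c (fun _ n' m => w n' m)
      ≤ (4 : ℝ) ^ k * ∑ m ∈ iv (N - k) S, ∑ n' ∈ iv (N - k) T, w n' m := by
  unfold GW
  refine mul_le_mul_of_nonneg_left (Finset.sum_le_sum fun m _ => ?_) (by positivity)
  exact H588.sum_refl_le (N - k) R T (c - m) (fun n' => w n' m) fun n' => w0 n' m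

omit [Fintype κ] [DecidableEq κ] in
theorem GW_smul (N : ℕ) (R S T : ℤ) (k : ℕ) (c : ℤ) (t : ℝ) (g : ℤ → ℤ → ℤ → ℝ) :
    GW N R S T k c (fun n n' m => t * g n n' m) = t * GW N R S T k c g := by
  have h := GW_sub N R S T k c (fun _ _ _ => 0) g (-t)
  have h0 : GW N R S T k c (fun _ _ _ => 0) = 0 := by simp [GW]
  rw [h0] at h
  have e : (fun n n' m => 0 - -t * g n n' m) = fun n n' m => t * g n n' m := by
    funext n n' m; ring
  rw [e] at h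
  linarith

omit [Fintype κ] [DecidableEq κ] in
theorem GW_add (N : ℕ) (R S T : ℤ) (k : ℕ) (c : ℤ) (g d : ℤ → ℤ → ℤ → ℝ) :
    GW N R S T k c (fun n n' m => g n n' m + d n n' m)
      = GW N R S T k c g + GW N R S T k c d := by
  have h := GW_sub N R S T k c g d (-1)
  have e : (fun n n' m => g n n' m - -1 * d n n' m) = fun n n' m => g n n' m + d n n' m := by
    funext n n' m; ring
  rw [e] at h
  linarith

/-- the cost of one scale: a sum over points -/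
def cAC (N : ℕ) (T S : ℤ) (b : ℤ → ℤ → κ → ℝ) (W M Nm : ℤ → ℕ → ℤ → Matrix κ κ ℝ) (k : ℕ) : ℝ :=
  ∑ x ∈ iv N T, ∑ y ∈ iv N S,
    (b x y ⬝ᵥ (M x (k + 1) (ix (k + 1) y) * (W x (k + 1) (ix (k + 1) y))⁻¹
        * M x (k + 1) (ix (k + 1) y)) *ᵥ b x y
    + (1 / 2) * (b x y ⬝ᵥ (dW W x k (ix k y) * (W x k (ix k y))⁻¹ * dW W x k (ix k y)) *ᵥ b x y)
    + (1 / 2) * (b x y ⬝ᵥ Nm x (k + 1) (ix (k + 1) y) *ᵥ b x y))

theorem quad_nonneg {X L : Matrix κ κ ℝ} (hX : X.PosDef) (hL : Lᵀ = L) (v : κ → ℝ) :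
    0 ≤ v ⬝ᵥ (L * X⁻¹ * L) *ᵥ v := by
  have h := hX.inv.posSemidef.dotProduct_mulVec_nonneg (L *ᵥ v)
  rw [star_trivial, ← mulVec_mulVec, ← mulVec_mulVec] at *
  rwa [dotProduct_mulVec v L, ← mulVec_transpose, hL]

theorem qAC_nonneg {N : ℕ} {W Nn M Nm : ℤ → ℕ → ℤ → Matrix κ κ ℝ} (h : Wf N W Nn M Nm)
    (b : ℤ → ℤ → κ → ℝ) (k aC : ℕ) (n' m : ℤ) : 0 ≤ qAC b W M Nm k aC n' m := by
  have sW : ∀ x k m, (W x k m)ᵀ = W x k m := fun x k m => H420.tr_symm (h.pd x k m).isHermitian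
  refine mul_nonneg (by positivity) (Finset.sum_nonneg fun x _ => Finset.sum_nonneg fun y _ => ?_)
  have h1 := quad_nonneg (h.pd x (k + 1) m) (h.sM x (k + 1) m) (b x y)
  have h2 := quad_nonneg (h.pd x k (ix k y)) (L := dW W x k (ix k y))
    (by rw [dW, transpose_sub, sW, sW]) (b x y)
  have h3 := (h.pNm x (k + 1) m).dotProduct_mulVec_nonneg (b x y)
  rw [star_trivial] at h3
  linarith

/-- plane sum of the cost -/
theorem GW_qAC {N : ℕ} {W Nn M Nm : ℤ → ℕ → ℤ → Matrix κ κ ℝ} (h : Wf N W Nn M Nm)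
    (b : ℤ → ℤ → κ → ℝ) {k : ℕ} (hk : k < N) (R S T c : ℤ) :
    GW N R S T (k + 1) c (fun _ n' m => qAC b W M Nm k (k + 1) n' m)
      ≤ 2 * cAC N T S b W M Nm k := by
  refine (GW_le_sum N R S T (k + 1) c fun n m => qAC_nonneg h b k (k + 1) n m).trans
    (le_of_eq ?_)
  have e1 : ∀ m ∈ iv (N - (k + 1)) S, ∑ n' ∈ iv (N - (k + 1)) T, qAC b W M Nm k (k + 1) n' m
      = ((2 : ℝ) ^ (k + 1) * 2 ^ k)⁻¹ * ∑ y ∈ iv (k + 1) m, ∑ x ∈ iv N T,
      (b x y ⬝ᵥ (M x (k + 1) (ix (k + 1) y) * (W x (k + 1) (ix (k + 1) y))⁻¹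
        * M x (k + 1) (ix (k + 1) y)) *ᵥ b x y
      + (1 / 2) * (b x y ⬝ᵥ (dW W x k (ix k y) * (W x k (ix k y))⁻¹ * dW W x k (ix k y)) *ᵥ b x y)
      + (1 / 2) * (b x y ⬝ᵥ Nm x (k + 1) (ix (k + 1) y) *ᵥ b x y)) := by
    intro m _
    unfold qAC
    rw [← Finset.mul_sum]
    congr 1
    rw [H258.sum_sub (show k + 1 ≤ N from hk) T fun _ x => ∑ y ∈ iv (k + 1) m,
      (b x y ⬝ᵥ (M x (k + 1) m * (W x (k + 1) m)⁻¹ * M x (k + 1) m) *ᵥ b x y
      + (1 / 2) * (b x y ⬝ᵥ (dW W x k (ix k y) * (W x k (ix k y))⁻¹ * dW W x k (ix k y)) *ᵥ b x y)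
      + (1 / 2) * (b x y ⬝ᵥ Nm x (k + 1) m *ᵥ b x y)), Finset.sum_comm]
    refine Finset.sum_congr rfl fun y hy => Finset.sum_congr rfl fun x _ => ?_
    rw [mem_iv.1 hy]
  rw [Finset.sum_congr rfl e1, ← Finset.mul_sum, H258.sum_sub (show k + 1 ≤ N from hk) S
    fun _ y => ∑ x ∈ iv N T,
      (b x y ⬝ᵥ (M x (k + 1) (ix (k + 1) y) * (W x (k + 1) (ix (k + 1) y))⁻¹
        * M x (k + 1) (ix (k + 1) y)) *ᵥ b x y
      + (1 / 2) * (b x y ⬝ᵥ (dW W x k (ix k y) * (W x k (ix k y))⁻¹ * dW W x k (ix k y)) *ᵥ b x y)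
      + (1 / 2) * (b x y ⬝ᵥ Nm x (k + 1) (ix (k + 1) y) *ᵥ b x y)), Finset.sum_comm, cAC,
    ← mul_assoc]
  congr 1
  have h4 : (4 : ℝ) ^ (k + 1) = 2 * (2 ^ (k + 1) * 2 ^ k) := by
    rw [show (4 : ℝ) = 2 * 2 by norm_num, mul_pow, pow_succ]; ring
  rw [h4, mul_assoc, mul_inv_cancel₀ (by positivity), mul_one]

/-- **Pair sum, real letters, weight form, hub = middle variable.** -/
theorem realAC {N : ℕ} {W Nn M Nm : ℤ → ℕ → ℤ → Matrix κ κ ℝ} (h : Wf N W Nn M Nm)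
    {k₀ : ℕ} (hkN : k₀ ≤ N) {R S T : ℤ} {c : ℕ → ℤ} (hc : H588.Pl c) {τ s : ℝ} (hs : 0 < s)
    (hτ : 0 ≤ τ) (A : ℤ → ℤ → ℝ) (b : ℤ → ℤ → κ → ℝ)
    (hA : ∀ k, k₀ ≤ k → k < N → ∀ n m,
      (τ • (1 : Matrix (Ix k) (Ix k) ℝ) - PA A k (k + 1) n m).PosSemidef) :
    (1 / 4) * ∑ k ∈ Ico k₀ N, GW N R S T (k + 1) (c (k + 1)) (gAC A b W s k (k + 1) (k + 1))
      ≤ √(77 * EW N R S k₀ (PA A k₀) k₀ * TV k₀ N T S (fun k a n m => phs s (XW b W k a n m)))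
        + τ * s⁻¹ / 2 * ∑ k ∈ Ico k₀ N, GW N R S T (k + 1) (c (k + 1)) (fun _ n' m =>
          dls s (XW b W k k (2 * n') (2 * m)) (XW b W k k (2 * n' + 1) (2 * m))
          + dls s (XW b W k k (2 * n') (2 * m + 1)) (XW b W k k (2 * n' + 1) (2 * m + 1)))
        + τ * s⁻¹ / 2 * ∑ k ∈ Ico k₀ N, GW N R S T (k + 1) (c (k + 1))
          (fun _ n' m => gC b W s k (k + 1) n' m)
        + 2 * τ * ∑ k ∈ Ico k₀ N, cAC N T S b W M Nm k := by
  have H := pairAC_total hkN hc (P := fun k => PA A k) (W := fun k => XW b W k) (s2 := s)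
    (t2 := τ) (R := R) (S := S) (T := T) hs
    (g := fun k n n' m => (1 / 4) * gAC A b W s k (k + 1) (k + 1) n n' m
      - τ * (s⁻¹ / 2 * gC b W s k (k + 1) n' m + qAC b W M Nm k (k + 1) n' m))
    (fun k a n m => PA_symm A k a n m) (fun k a n m => XW_psd h b k a n m)
    (fun k _ _ => PA_out N k A) (fun k _ _ => XW_out N k b W) hA
    (fun k _ hk a _ _ => PA_own hk R S A a)
    (fun k h1 h2 n n' m => by
      have q := nodeAC h h2 hs hτ A b (k + 1) (k + 1) n n' m (hA k h1 h2 n _) (hA k h1 h2 n _)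
      linarith)
  have e : ∑ k ∈ Ico k₀ N, GW N R S T (k + 1) (c (k + 1)) (fun n n' m =>
        (1 / 4) * gAC A b W s k (k + 1) (k + 1) n n' m
      - τ * (s⁻¹ / 2 * gC b W s k (k + 1) n' m + qAC b W M Nm k (k + 1) n' m))
      = (1 / 4) * ∑ k ∈ Ico k₀ N, GW N R S T (k + 1) (c (k + 1)) (gAC A b W s k (k + 1) (k + 1))
        - (τ * s⁻¹ / 2 * ∑ k ∈ Ico k₀ N, GW N R S T (k + 1) (c (k + 1))
            (fun _ n' m => gC b W s k (k + 1) n' m)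
          + τ * ∑ k ∈ Ico k₀ N, GW N R S T (k + 1) (c (k + 1))
            (fun _ n' m => qAC b W M Nm k (k + 1) n' m)) := by
    rw [Finset.mul_sum, Finset.mul_sum, Finset.mul_sum, ← Finset.sum_add_distrib,
      ← Finset.sum_sub_distrib]
    refine Finset.sum_congr rfl fun k _ => ?_
    rw [GW_sub, GW_smul, GW_add N R S T (k + 1) (c (k + 1))
      (fun _ n' m => s⁻¹ / 2 * gC b W s k (k + 1) n' m), GW_smul]
    ring
  have h3 : ∑ k ∈ Ico k₀ N, GW N R S T (k + 1) (c (k + 1))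
            (fun _ n' m => qAC b W M Nm k (k + 1) n' m)
      ≤ 2 * ∑ k ∈ Ico k₀ N, cAC N T S b W M Nm k := by
    rw [Finset.mul_sum]
    exact Finset.sum_le_sum fun k hk => GW_qAC h b (mem_Ico.1 hk).2 R S T _
  have h4 := mul_le_mul_of_nonneg_left h3 hτ
  rw [e] at H
  linarith

end

end Vale.Agent.P141.H389
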