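import Vale.Agent.P141.H389.PlaneV
import Vale.Agent.P141.H585.PairCh

/-!
# Pair sum of a raw family against a capped family (abstract form)

First family: raw Gram matrices, exact outer averages, cap `t2`. Second family: `phs s2 W`, `W`
exact outer averages. The concavity defect of the outer step is paid by the own defects of `W`.
-/

namespace Vale.Agent.P141.H389

open Finset Matrix Vale.Agent.P141.PL Vale.Agent.P141.PL.H103 Vale.Agent.P141.H103
open Vale.Agent.P075 (phi delt)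
open Vale.Agent.P141.H585.PairCh (phs dls)

noncomputable section

/-! ### The exact family -/

/-- the energy `TV` of an exact family is at most a constant times its energy at the start -/
theorem TV_exact {k₀ N : ℕ} (hkN : k₀ ≤ N) {R S : ℤ} {ι : ℕ → Type*} [∀ k, Fintype (ι k)]
    {P : ∀ k, ℕ → ℤ → ℤ → Matrix (ι k) (ι k) ℝ}
    (oP : ∀ k, k₀ ≤ k → k ≤ N → OutM N k (P k)) (sP : ∀ k a n m, (P k a n m)ᵀ = P k a n m)
    (own : ∀ k, k₀ ≤ k → k < N → ∀ a, k + 1 ≤ a → a ≤ N →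
      EW N R S (k + 1) (P (k + 1)) a ≤ EW N R S k (P k) a) :
    TV k₀ N R S P ≤ 77 * EW N R S k₀ (P k₀) k₀ := by
  have key : ∀ K, k₀ ≤ K → K ≤ N → ∑ k ∈ Ico k₀ K, SVM N k R S (P k)
      + WW N K (EW N R S K (P K)) ≤ WW N k₀ (EW N R S k₀ (P k₀)) := by
    intro K hK
    induction K, hK using Nat.le_induction with
    | base => intro _; simp
    | succ K hK ih =>
      intro hKN
      have hlt : K < N := by omega
      have q := ih hlt.le
      have q2 := WW_step hlt (e := EW N R S K (P K)) (e' := EW N R S (K + 1) (P (K + 1)))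
        (d := fun _ => 0) (fun a h1 h2 => by simpa using own K hK hlt a h1 h2)
      have q3 : WW N (K + 1) (fun _ => (0 : ℝ)) = 0 := by simp [WW]
      rw [sum_Ico_succ_top hK, SVM_eq hlt.le (oP K hK hlt.le)]
      linarith
  have h := key N hkN le_rfl
  have p2 := WW_le (N := N) (k := k₀) (e := EW N R S k₀ (P k₀)) (EW_nonneg (sP k₀) k₀)
    fun a h1 h2 => EW_anti' (oP k₀ le_rfl hkN) (sP k₀) h1 h2
  have p3 := le_WW (N := N) (k := N) (e := EW N R S N (P N)) (EW_nonneg (sP N))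
  have p4 : 0 ≤ ∑ k ∈ Ico k₀ N, SVM N k R S (P k) :=
    Finset.sum_nonneg fun k _ => SVM_nonneg (sP k)
  have p5 := EW_nonneg (N := N) (R := R) (S := S) (k := N) (sP N) N
  unfold TV
  linarith

/-! ### The concavity defect of the outer step -/

variable {ι : Type*} [Fintype ι] [DecidableEq ι]

theorem phs_mean {s : ℝ} (X₀ X₁ : Matrix ι ι ℝ) :
    phs s ((1 / 2 : ℝ) • (X₀ + X₁)) = (1 / 2 : ℝ) • (phs s X₀ + phs s X₁)
      + s • delt (s⁻¹ • X₀) (s⁻¹ • X₁) := by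
  unfold phs delt
  have e : s⁻¹ • ((1 / 2 : ℝ) • (X₀ + X₁)) = (1 / 2 : ℝ) • (s⁻¹ • X₀ + s⁻¹ • X₁) := by module
  rw [e]
  module

/-- the loss of the outer step against a partner of size `t2` -/
theorem outer_loss {s t2 : ℝ} (hs : 0 < s) {P X₀ X₁ : Matrix ι ι ℝ}
    (hP : (t2 • (1 : Matrix ι ι ℝ) - P).PosSemidef) (h0 : X₀.PosSemidef) (h1 : X₁.PosSemidef) :
    (P * phs s ((1 / 2 : ℝ) • (X₀ + X₁))).trace
      ≤ (P * ((1 / 2 : ℝ) • (phs s X₀ + phs s X₁))).trace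
        + t2 * s⁻¹ * dls s X₀ X₁ := by
  have k0 : (s⁻¹ • X₀).PosSemidef := h0.smul (inv_pos.2 hs).le
  have k1 : (s⁻¹ • X₁).PosSemidef := h1.smul (inv_pos.2 hs).le
  have hd := P075.delt_psd k0 k1
  have h := P075.trace_mul_le_left (V := P) (W := t2 • (1 : Matrix ι ι ℝ)) hd hP
  rw [smul_mul_assoc, Matrix.one_mul, trace_smul, smul_eq_mul] at h
  rw [phs_mean, Matrix.mul_add, trace_add, Matrix.mul_smul P s, trace_smul, smul_eq_mul]
  have h2 := mul_le_mul_of_nonneg_left h hs.le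
  have e : t2 * s⁻¹ * dls s X₀ X₁ = s * (t2 * (delt (s⁻¹ • X₀) (s⁻¹ • X₁)).trace) := by
    unfold dls
    field_simp
  rw [e]
  linarith

omit [Fintype ι] [DecidableEq ι] in
theorem GW_sub (N : ℕ) (R S T : ℤ) (k : ℕ) (c : ℤ) (g d : ℤ → ℤ → ℤ → ℝ) (t : ℝ) :
    GW N R S T k c (fun n n' m => g n n' m - t * d n n' m)
      = GW N R S T k c g - t * GW N R S T k c d := by
  unfold GW
  have e : ∀ m, ∑ n ∈ iv (N - k) R, (if c - m - n ∈ iv (N - k) T then
        g n (c - m - n) m - t * d n (c - m - n) m else 0)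
      = ∑ n ∈ iv (N - k) R, (if c - m - n ∈ iv (N - k) T then g n (c - m - n) m else 0)
        - t * ∑ n ∈ iv (N - k) R, (if c - m - n ∈ iv (N - k) T then d n (c - m - n) m else 0) := by
    intro m
    rw [Finset.mul_sum, ← Finset.sum_sub_distrib]
    refine Finset.sum_congr rfl fun n _ => ?_
    split_ifs <;> ring
  simp only [e]
  rw [Finset.sum_sub_distrib, ← Finset.mul_sum]
  ring

theorem phs_symm {s : ℝ} (hs : 0 < s) {X : Matrix ι ι ℝ} (hX : X.PosSemidef) :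
    (phs s X)ᵀ = phs s X := by
  unfold phs
  rw [transpose_smul, P075.phi_symm (hX.smul (inv_pos.2 hs).le)]

/-- **Pair sum**: raw exact family with cap `t2` against the capped family `phs s2 W`. -/
theorem pairAC_total {k₀ N : ℕ} (hkN : k₀ ≤ N) {R S T : ℤ} {c : ℕ → ℤ} (hc : H588.Pl c)
    {ι : ℕ → Type*} [∀ k, Fintype (ι k)] [∀ k, DecidableEq (ι k)] {s2 t2 : ℝ} (hs : 0 < s2)
    {P W : ∀ k, ℕ → ℤ → ℤ → Matrix (ι k) (ι k) ℝ} {g : ℕ → ℤ → ℤ → ℤ → ℝ}
    (sP : ∀ k a n m, (P k a n m)ᵀ = P k a n m) (pW : ∀ k a n m, (W k a n m).PosSemidef)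
    (oP : ∀ k, k₀ ≤ k → k ≤ N → OutM N k (P k)) (oW : ∀ k, k₀ ≤ k → k ≤ N → OutM N k (W k))
    (cap : ∀ k, k₀ ≤ k → k < N → ∀ n m,
      (t2 • (1 : Matrix (ι k) (ι k) ℝ) - P k (k + 1) n m).PosSemidef)
    (own : ∀ k, k₀ ≤ k → k < N → ∀ a, k + 1 ≤ a → a ≤ N →
      EW N R S (k + 1) (P (k + 1)) a ≤ EW N R S k (P k) a)
    (mid : ∀ k, k₀ ≤ k → k < N → ∀ n n' m,
      (P (k + 1) (k + 1) n m * phs s2 (W (k + 1) (k + 1) n' m)).trace + g k n n' m
      ≤ (1 / 2) * ((P k (k + 1) n (2 * m) * phs s2 (W k (k + 1) n' (2 * m))).trace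
        + (P k (k + 1) n (2 * m + 1) * phs s2 (W k (k + 1) n' (2 * m + 1))).trace)) :
    ∑ k ∈ Ico k₀ N, GW N R S T (k + 1) (c (k + 1)) (g k)
      ≤ √(77 * EW N R S k₀ (P k₀) k₀ * TV k₀ N T S (fun k a n m => phs s2 (W k a n m)))
        + t2 * s2⁻¹ / 2 * ∑ k ∈ Ico k₀ N, GW N R S T (k + 1) (c (k + 1)) (fun _ n' m =>
          dls s2 (W k k (2 * n') (2 * m)) (W k k (2 * n' + 1) (2 * m))
          + dls s2 (W k k (2 * n') (2 * m + 1)) (W k k (2 * n' + 1) (2 * m + 1))) := by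
  set d : ℕ → ℤ → ℤ → ℤ → ℝ := fun k _ n' m =>
    dls s2 (W k k (2 * n') (2 * m)) (W k k (2 * n' + 1) (2 * m))
      + dls s2 (W k k (2 * n') (2 * m + 1)) (W k k (2 * n' + 1) (2 * m + 1)) with hd
  have h := totalV_sqrt hkN hc (P := P) (Q := fun k a n m => phs s2 (W k a n m))
    (g := fun k n n' m => g k n n' m - t2 * s2⁻¹ / 2 * d k n n' m) (R := R) (S := S) (T := T) sP
    (fun k a n m => phs_symm hs (pW k a n m))
    (fun k h1 h2 n n' m => by
      have q := mid k h1 h2 n n' m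
      have a0 : ∀ h, mn (fun n => P k k n h) n = P k (k + 1) n h := fun h =>
        (oP k h1 h2.le k le_rfl h2 n h).symm
      have b0 : ∀ h, W k (k + 1) n' h = (1 / 2 : ℝ) • (W k k (2 * n') h + W k k (2 * n' + 1) h) :=
        fun h => oW k h1 h2.le k le_rfl h2 n' h
      have l : ∀ h, (P k (k + 1) n h * phs s2 (W k (k + 1) n' h)).trace
          ≤ (P k (k + 1) n h * mn (fun n => phs s2 (W k k n h)) n').trace
            + t2 * s2⁻¹ * dls s2 (W k k (2 * n') h) (W k k (2 * n' + 1) h) := by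
        intro h
        rw [b0 h]
        exact outer_loss hs (cap k h1 h2 n h) (pW _ _ _ _) (pW _ _ _ _)
      have l0 := l (2 * m)
      have l1 := l (2 * m + 1)
      simp only [a0, hd]
      linarith)
  have e : ∑ k ∈ Ico k₀ N, GW N R S T (k + 1) (c (k + 1))
        (fun n n' m => g k n n' m - t2 * s2⁻¹ / 2 * d k n n' m)
      = ∑ k ∈ Ico k₀ N, GW N R S T (k + 1) (c (k + 1)) (g k)
        - t2 * s2⁻¹ / 2 * ∑ k ∈ Ico k₀ N, GW N R S T (k + 1) (c (k + 1)) (d k) := by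
    rw [Finset.mul_sum, ← Finset.sum_sub_distrib]
    exact Finset.sum_congr rfl fun k _ => GW_sub ..
  rw [e] at h
  have h3 := TV_exact hkN (R := R) (S := S) oP sP own
  have h4 : 0 ≤ TV k₀ N T S (fun k a n m => phs s2 (W k a n m)) :=
    TV_nonneg fun k a n m => phs_symm hs (pW k a n m)
  have h5 := Real.sqrt_le_sqrt (mul_le_mul_of_nonneg_right h3 h4)
  linarith

end

end Vale.Agent.P141.H389
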