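import Vale.Agent.P141.H92.PairFin
import Vale.Agent.P141.H125.Stk0

/-!
# `H92.pairSS_fin` for `H125.Stk0`

The energy of the two stack families is asked only at the first scale.
-/

namespace Vale.Agent.P141.H389

open Finset Matrix Vale.Agent.P141.PL Vale.Agent.P141.PL.H103 Vale.Agent.P141.H103
open Vale.Agent.P075 (phi delt GX)
open Vale.Agent.P141.H585.PairCh (phs dls mv)
open Vale.Agent.P141.H505 (SG SD)
open Vale.Agent.P141.H336 (bsum bsum_mono bsum_nonneg bsum_add bsum_smul bsum_outer bsum_mid)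
open Vale.Agent.P141.H92 (dh GW_left GW_right dls_nonneg dls_le mv_zero' pairSS_total)
open Vale.Agent.P141.H125.S0 (Stk0)

noncomputable section

section stk

variable {k₀ N : ℕ} {R S : ℤ} {ι : ℕ → Type*} [∀ k, Fintype (ι k)] [∀ k, DecidableEq (ι k)]
  {μ : ℝ} {J : ℕ} {W X₀ X₁ : ∀ k, ℕ → ℤ → ℤ → Matrix (ι k) (ι k) ℝ}
  {q p γ : ℕ → ℕ → ℤ → ℤ → ℝ} {H Qo Qm : ℝ}

/-- a stack family with a static outer step -/
abbrev Sta (k₀ N : ℕ) (R S : ℤ) {ι : ℕ → Type*} [∀ k, Fintype (ι k)] [∀ k, DecidableEq (ι k)]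
    (μ : ℝ) (J : ℕ) (W : ∀ k, ℕ → ℤ → ℤ → Matrix (ι k) (ι k) ℝ) (p γ : ℕ → ℕ → ℤ → ℤ → ℝ)
    (H Qm : ℝ) : Prop :=
  Stk0 k₀ N R S μ J W (fun k a n m => W k a (2 * n) m) (fun k a n m => W k a (2 * n + 1) m)
    (fun _ _ _ _ => 0) (fun _ _ _ _ => 0) (fun _ _ _ _ => 0) p γ H 0 Qm

theorem Sta.outM (h : Sta k₀ N R S μ J W p γ H Qm) (k : ℕ) (h1 : k₀ ≤ k) (_ : k ≤ N) :
    OutM N k (W k) := fun a h3 h4 n m => h.par k a n m h1 h3 h4

/-- total energy -/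
def Es (J : ℕ) (H Qm : ℝ) : ℝ := ((J : ℝ) + 1) * H + Qm

/-- **The sum of the defects of the two middle halves over all scales.** -/
theorem Sta.dh_sum (h : Sta k₀ N R S μ J W p γ H Qm) {j : ℕ} (hj : j ≤ J) :
    ∑ k ∈ Ico k₀ N, bsum N R S (k + 1) (k + 1) (dh ((μ / 4 ^ j)⁻¹) (W k k))
      ≤ 8 * (μ / 4 ^ j)⁻¹ * Es J H Qm := by
  have hμ := h.hμ
  have hp : 0 < (μ / 4 ^ j)⁻¹ := by positivity
  have h0 := h.outer_diag 0
  simp only [Nat.sub_zero, Nat.add_zero] at h0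
  have key : ∀ k ∈ Ico k₀ N, bsum N R S (k + 1) (k + 1) (dh ((μ / 4 ^ j)⁻¹) (W k k))
      ≤ 2 * (μ / 4 ^ j)⁻¹ * ((2 : ℝ) ^ (k + 1) * 2 ^ k * ∑ m ∈ iv (N - k) S,
        ∑ n ∈ iv (N - (k + 1)) R, SD μ J (W k k (2 * n) m) (W k k (2 * n + 1) m)) := by
    intro k hk
    obtain ⟨k1, k2⟩ := mem_Ico.1 hk
    have e : dh ((μ / 4 ^ j)⁻¹) (W k k) = fun n m => (1 / 2) *
        (2 * dls ((μ / 4 ^ j)⁻¹) (W k k (2 * n) (2 * m)) (W k k (2 * n + 1) (2 * m))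
          + 2 * dls ((μ / 4 ^ j)⁻¹) (W k k (2 * n) (2 * m + 1))
            (W k k (2 * n + 1) (2 * m + 1))) := by
      funext n m
      unfold dh
      ring
    rw [e, bsum_mid k2 R S fun n m => 2 * dls ((μ / 4 ^ j)⁻¹) (W k k (2 * n) m)
      (W k k (2 * n + 1) m)]
    refine (bsum_mono (g := fun n m => 2 * (μ / 4 ^ j)⁻¹ * SD μ J (W k k (2 * n) m)
      (W k k (2 * n + 1) m)) fun n m => ?_).trans (le_of_eq ?_)
    · have := dls_le (h.psd0 k k n m) (h.psd1 k k n m) hμ hj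
      linarith
    · rw [bsum_smul]
      rfl
  refine (sum_le_sum key).trans ?_
  rw [← mul_sum]
  have := mul_le_mul_of_nonneg_left h0 (by positivity : (0 : ℝ) ≤ 2 * (μ / 4 ^ j)⁻¹)
  unfold Es
  linarith

end stk

/-- **The pair sum of two capped stack families, numbers.** -/
theorem pair_fin0 {k₀ N : ℕ} {R S T : ℤ} {c : ℕ → ℤ} (hc : H588.Pl c)
    {ι : ℕ → Type*} [∀ k, Fintype (ι k)] [∀ k, DecidableEq (ι k)]
    {μ μ' : ℝ} {J J' : ℕ} {V W : ∀ k, ℕ → ℤ → ℤ → Matrix (ι k) (ι k) ℝ}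
    {p γ p' γ' : ℕ → ℕ → ℤ → ℤ → ℝ} {H Qm H' Qm' : ℝ}
    (hV : Sta k₀ N R S μ J V p γ H Qm) (hW : Sta k₀ N T S μ' J' W p' γ' H' Qm')
    {j j' : ℕ} (hj : j ≤ J) (hj' : j' ≤ J') {s1 s2 : ℝ} (e1 : s1 = (μ / 4 ^ j)⁻¹)
    (e2 : s2 = (μ' / 4 ^ j')⁻¹) {g : ℕ → ℤ → ℤ → ℤ → ℝ} {y1 y2 : ℕ → ℤ → ℤ → ℝ}
    (n1 : ∀ k n m, 0 ≤ y1 k n m) (n2 : ∀ k n m, 0 ≤ y2 k n m) {Y1 Y2 : ℝ}
    (hY1 : ∑ k ∈ Ico k₀ N, bsum N R S (k + 1) (k + 1) (y1 k) ≤ Y1)
    (hY2 : ∑ k ∈ Ico k₀ N, bsum N T S (k + 1) (k + 1) (y2 k) ≤ Y2)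
    (mid : ∀ k, k₀ ≤ k → k < N → ∀ n n' m,
      (phs s1 (V (k + 1) (k + 1) n m) * phs s2 (W (k + 1) (k + 1) n' m)).trace + g k n n' m
      ≤ (1 / 2) * ((phs s1 (V k (k + 1) n (2 * m)) * phs s2 (W k (k + 1) n' (2 * m))).trace
        + (phs s1 (V k (k + 1) n (2 * m + 1)) * phs s2 (W k (k + 1) n' (2 * m + 1))).trace)
        + s2 * y1 k n m + s1 * y2 k n' m) :
    ∑ k ∈ Ico k₀ N, GW N R S T (k + 1) (c (k + 1)) (g k)
      ≤ 1600 * √(s1 * s2 * (Es J H Qm * Es J' H' Qm'))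
        + 4 * s2 * Es J H Qm + 4 * s1 * Es J' H' Qm' + s2 * Y1 + s1 * Y2 := by
  have hμ := hV.hμ
  have hμ' := hW.hμ
  have p1 : 0 < s1 := by rw [e1]; positivity
  have p2 : 0 < s2 := by rw [e2]; positivity
  have h := pairSS_total hV.hkN hc p1 p2 hV.psd hW.psd hV.outM hW.outM (R := R) (S := S)
    (T := T) (g := fun k n n' m => (g k n n' m - s2 * y1 k n m) - s1 * y2 k n' m)
    (fun k k1 k2 n n' m => by
      have := mid k k1 k2 n n' m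
      linarith)
  have e : ∑ k ∈ Ico k₀ N, GW N R S T (k + 1) (c (k + 1))
        (fun n n' m => (g k n n' m - s2 * y1 k n m) - s1 * y2 k n' m)
      = ∑ k ∈ Ico k₀ N, GW N R S T (k + 1) (c (k + 1)) (g k)
        - s2 * ∑ k ∈ Ico k₀ N, GW N R S T (k + 1) (c (k + 1)) (fun n _ m => y1 k n m)
        - s1 * ∑ k ∈ Ico k₀ N, GW N R S T (k + 1) (c (k + 1)) (fun _ n' m => y2 k n' m) := by
    rw [Finset.mul_sum, Finset.mul_sum, ← Finset.sum_sub_distrib, ← Finset.sum_sub_distrib]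
    refine Finset.sum_congr rfl fun k _ => ?_
    rw [GW_sub N R S T (k + 1) (c (k + 1)) (fun n n' m => g k n n' m - s2 * y1 k n m)
      (fun _ n' m => y2 k n' m) s1]
    rw [GW_sub N R S T (k + 1) (c (k + 1)) (g k) (fun n _ m => y1 k n m) s2]
  rw [e] at h
  -- the four sums
  have a1 : ∑ k ∈ Ico k₀ N, GW N R S T (k + 1) (c (k + 1)) (fun n _ m => y1 k n m) ≤ Y1 :=
    (sum_le_sum fun k _ => GW_left N R S T (k + 1) (c (k + 1)) (n1 k)).trans hY1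
  have a2 : ∑ k ∈ Ico k₀ N, GW N R S T (k + 1) (c (k + 1)) (fun _ n' m => y2 k n' m) ≤ Y2 :=
    (sum_le_sum fun k _ => GW_right N R S T (k + 1) (c (k + 1)) (n2 k)).trans hY2
  have d1 : ∑ k ∈ Ico k₀ N, GW N R S T (k + 1) (c (k + 1)) (fun n _ m => dh s1 (V k k) n m)
      ≤ 8 * s1 * Es J H Qm := by
    refine (sum_le_sum fun k _ => GW_left N R S T (k + 1) (c (k + 1)) fun n m => ?_).trans ?_
    · exact add_nonneg (dls_nonneg p1 (hV.psd _ _ _ _) (hV.psd _ _ _ _))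
        (dls_nonneg p1 (hV.psd _ _ _ _) (hV.psd _ _ _ _))
    · have := hV.dh_sum hj
      rw [← e1] at this
      exact this
  have d2 : ∑ k ∈ Ico k₀ N, GW N R S T (k + 1) (c (k + 1)) (fun _ n' m => dh s2 (W k k) n' m)
      ≤ 8 * s2 * Es J' H' Qm' := by
    refine (sum_le_sum fun k _ => GW_right N R S T (k + 1) (c (k + 1)) fun n m => ?_).trans ?_
    · exact add_nonneg (dls_nonneg p2 (hW.psd _ _ _ _) (hW.psd _ _ _ _))
        (dls_nonneg p2 (hW.psd _ _ _ _) (hW.psd _ _ _ _))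
    · have := hW.dh_sum hj'
      rw [← e2] at this
      exact this
  -- the plane energies
  have t1 := hV.TV_stack hj
  have t2 := hW.TV_stack hj'
  rw [← e1] at t1
  rw [← e2] at t2
  have z2 : 0 ≤ TV k₀ N T S (fun k a n m => phs s2 (W k a n m)) :=
    TV_nonneg fun k a n m => phs_symm p2 (hW.psd k a n m)
  have z1 : 0 ≤ TV k₀ N R S (fun k a n m => phs s1 (V k a n m)) :=
    TV_nonneg fun k a n m => phs_symm p1 (hV.psd k a n m)
  have t3 : √(TV k₀ N R S (fun k a n m => phs s1 (V k a n m))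
      * TV k₀ N T S (fun k a n m => phs s2 (W k a n m)))
      ≤ 1600 * √(s1 * s2 * (Es J H Qm * Es J' H' Qm')) := by
    have := mul_le_mul t1 t2 z2 (z1.trans t1)
    refine (Real.sqrt_le_sqrt this).trans (le_of_eq ?_)
    have e3 : 1600 * s1 * (((J : ℝ) + 1) * H + 0 + Qm)
        * (1600 * s2 * (((J' : ℝ) + 1) * H' + 0 + Qm'))
        = 1600 ^ 2 * (s1 * s2 * (Es J H Qm * Es J' H' Qm')) := by
      unfold Es
      ring
    rw [e3, Real.sqrt_mul (by norm_num), Real.sqrt_sq (by norm_num)]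
  have b1 : s2 * s1⁻¹ / 2 * (8 * s1 * Es J H Qm) = 4 * s2 * Es J H Qm := by
    field_simp
    ring
  have b2 : s1 * s2⁻¹ / 2 * (8 * s2 * Es J' H' Qm') = 4 * s1 * Es J' H' Qm' := by
    field_simp
    ring
  have c1 := mul_le_mul_of_nonneg_left d1 (by positivity : 0 ≤ s2 * s1⁻¹ / 2)
  have c2 := mul_le_mul_of_nonneg_left d2 (by positivity : 0 ≤ s1 * s2⁻¹ / 2)
  have c3 := mul_le_mul_of_nonneg_left a1 p2.le
  have c4 := mul_le_mul_of_nonneg_left a2 p1.le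
  linarith

end

end Vale.Agent.P141.H389
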