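import Vale.Agent.P141.H389.RealSS
import Vale.Agent.P141.H389.PairFin0

/-!
# The pair `(A, C)`, both slots capped: plane sums with numbers

`realSS` : time dependent families `A k`, `c k`, arbitrary changes on the row pieces `P k`, `Q k`.
-/

namespace Vale.Agent.P141.H389

open Finset Matrix Vale.Agent.P141.PL Vale.Agent.P141.PL.H103 Vale.Agent.P141.H103
open Vale.Agent.P075 (Ix val phi delt rad GX res)
open Vale.Agent.P141.H585.PairCh (phs dls)
open Vale.Agent.P141.H505 (SG SD SC)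
open Vale.Agent.P141.H336 (bsum bsum_mono bsum_nonneg bsum_add bsum_smul)

noncomputable section

theorem eA_nonneg (N : ℕ) (R S : ℤ) (A : ℤ → ℤ → ℝ) : 0 ≤ eA N R S A :=
  Finset.sum_nonneg fun _ _ => Finset.sum_nonneg fun _ _ => sq_nonneg _

/-- the scalar side, energy at the first scale only -/
theorem stkA0 {k₀ N : ℕ} (hkN : k₀ ≤ N) {R S : ℤ} {μ : ℝ} (hμ : 0 < μ) (J : ℕ)
    {A : ℕ → ℤ → ℤ → ℝ} {P : ℕ → ℤ → ℤ → Prop}
    (hP : ∀ k, k₀ ≤ k → k < N → ∀ z m, ¬ P k z m → ∀ y ∈ iv k m, A (k + 1) z y = A k z y)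
    {E0 D : ℝ} (hE : eA N R S (A k₀) ≤ E0)
    (hD : ∑ k ∈ Ico k₀ N, eA N R S (rst (P k) k (A (k + 1))) ≤ D) :
    Sta k₀ N R S μ J (fun k a n m => PA (A k) k a n m)
      (fun k a n m => (1 / 2) * ((J : ℝ) + 1) *
        ((PA (rst (P k) k (A (k + 1))) k a n (2 * m)).trace
          + (PA (rst (P k) k (A (k + 1))) k a n (2 * m + 1)).trace))
      (fun k a n m => gA μ J (A (k + 1)) k a n m) E0 (((J : ℝ) + 1) * D) := by
  set B : ℝ := ∑ k ∈ Icc k₀ N, eA N R S (A k)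
    + ∑ k ∈ Ico k₀ N, eA N R S (rst (P k) k (A (k + 1))) with hB
  have b1 : 0 ≤ ∑ k ∈ Icc k₀ N, eA N R S (A k) := Finset.sum_nonneg fun _ _ => eA_nonneg _ _ _ _
  have b2 : 0 ≤ ∑ k ∈ Ico k₀ N, eA N R S (rst (P k) k (A (k + 1))) :=
    Finset.sum_nonneg fun _ _ => eA_nonneg _ _ _ _
  have g := stkA (EA := B) hkN (R := R) (S := S) hμ J hP
    (fun k h1 h2 => by
      have := Finset.single_le_sum (f := fun k => eA N R S (A k))
        (fun k _ => eA_nonneg N R S (A k)) (mem_Icc.2 ⟨h1, h2⟩)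
      have h3 : eA N R S (A k) ≤ ∑ k ∈ Icc k₀ N, eA N R S (A k) := this
      linarith) (by linarith)
  exact
  { hkN := g.hkN
    hμ := g.hμ
    psd := g.psd
    psd0 := g.psd0
    psd1 := g.psd1
    nγ := g.nγ
    np := fun k a n m => mul_nonneg (by positivity)
      (add_nonneg (PA_psd _ k a n _).trace_nonneg (PA_psd _ k a n _).trace_nonneg)
    par := g.par
    ch0 := g.ch0
    ch1 := g.ch1
    out := g.out
    lip := g.lip
    mid := g.mid
    hH := fun a _ h2 => by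
      rw [sum_tr_PA h2 hkN]
      exact hE
    hQo := g.hQo
    hQm := fun r => by
      have h : ∀ k ∈ Ico k₀ (N - r), (2 : ℝ) ^ (k + 1 + r) * 2 ^ (k + 1)
          * ∑ m ∈ iv (N - (k + 1)) S, ∑ n ∈ iv (N - (k + 1 + r)) R,
            (1 / 2) * ((J : ℝ) + 1) * ((PA (rst (P k) k (A (k + 1))) k (k + 1 + r) n (2 * m)).trace
            + (PA (rst (P k) k (A (k + 1))) k (k + 1 + r) n (2 * m + 1)).trace)
          = ((J : ℝ) + 1) * eA N R S (rst (P k) k (A (k + 1))) := by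
        intro k hk
        have hk' := mem_Ico.1 hk
        rw [← sum_tr_PA (show k + 1 + r ≤ N by omega) (show k ≤ N by omega) R S
          (rst (P k) k (A (k + 1)))]
        have e : N - k = (N - (k + 1)) + 1 := by omega
        rw [e, H588.sum_iv_succ]
        simp only [← Finset.mul_sum, Finset.sum_add_distrib]
        rw [pow_succ 2 k]
        ring
      rw [Finset.sum_congr rfl h, ← Finset.mul_sum]
      refine mul_le_mul_of_nonneg_left ?_ (by positivity)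
      refine le_trans (Finset.sum_le_sum_of_subset_of_nonneg
        (Ico_subset_Ico_right (Nat.sub_le N r)) fun k _ _ => ?_) hD
      exact eA_nonneg _ _ _ _ }

variable {κ : Type*} [Fintype κ] [DecidableEq κ]

/-- one level of the own middle defects over all scales -/
theorem ow_sum {k₀ N : ℕ} {R S : ℤ} {μ : ℝ} {J : ℕ}
    {W : ∀ k, ℕ → ℤ → ℤ → Matrix (Ix k) (Ix k) ℝ} {p γ : ℕ → ℕ → ℤ → ℤ → ℝ} {H Qm : ℝ}
    (hW : Sta k₀ N R S μ J W p γ H Qm) {j : ℕ} (hj : j ≤ J) {s : ℝ} (e : s = (μ / 4 ^ j)⁻¹)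
    {X : ∀ k, ℕ → ℤ → ℤ → Matrix (Ix k ⊕ Ix k) (Ix k ⊕ Ix k) ℝ}
    (hX : ∀ k a n m, (X k a n m).PosSemidef) {C : ℝ} (hC : 0 ≤ C)
    (hγ : ∀ k a n m, SC μ J (rad (Ix k)) (X k a n m) ≤ C * γ k a n m) :
    ∑ k ∈ Ico k₀ N, bsum N R S (k + 1) (k + 1) (fun n m => ow s (X k (k + 1) n m))
      ≤ C * Es J H Qm := by
  have h := hW.mid_diag 0
  simp only [Nat.sub_zero, Nat.add_zero] at h
  have h2 : ∑ k ∈ Ico k₀ N, bsum N R S (k + 1) (k + 1) (fun n m => ow s (X k (k + 1) n m))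
      ≤ ∑ k ∈ Ico k₀ N, C * bsum N R S (k + 1) (k + 1) (fun n m => γ k (k + 1) n m) := by
    refine Finset.sum_le_sum fun k _ => ?_
    rw [← bsum_smul]
    exact bsum_mono fun n m => (ow_le_SC hW.hμ hj e (hX _ _ _ _)).trans (hγ _ _ _ _)
  refine h2.trans ?_
  rw [← Finset.mul_sum]
  refine mul_le_mul_of_nonneg_left ?_ hC
  unfold Es
  unfold bsum
  linarith

/-- **The pair `(A, C)`, both slots capped, numbers.** -/
theorem realSS {N : ℕ} {W Nn M Nm : ℤ → ℕ → ℤ → Matrix κ κ ℝ} (h : Wf N W Nn M Nm)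
    {k₀ : ℕ} (hkN : k₀ ≤ N) {R S T : ℤ} {pl : ℕ → ℤ} (hpl : H588.Pl pl)
    {A : ℕ → ℤ → ℤ → ℝ} {c : ℕ → ℤ → ℤ → κ → ℝ} {P Q : ℕ → ℤ → ℤ → Prop}
    (hA : ∀ k, k₀ ≤ k → k < N → ∀ z m, ¬ P k z m → ∀ y ∈ iv k m, A (k + 1) z y = A k z y)
    (hC : ∀ k, k₀ ≤ k → k < N → ∀ x m, ¬ Q k x m → ∀ y ∈ iv k m, c (k + 1) x y = c k x y)
    {EA : ℝ} (hE : eA N R S (A k₀) ≤ EA)
    (hD : ∑ k ∈ Ico k₀ N, eA N R S (rst (P k) k (A (k + 1))) ≤ EA)
    {μ : ℝ} {J : ℕ} {p : ℕ → ℕ → ℤ → ℤ → ℝ} {H Qm : ℝ}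
    (hW : Sta k₀ N T S μ J (fun k => XW (c k) W k) p
      (fun k a n m => (1 / 4) * SC μ J (rad (Ix k)) (XWs (c (k + 1)) W k a n m)) H Qm)
    {j : ℕ} (hj : j ≤ J) {s1 s2 : ℝ} (h1 : 0 < s1) (e2 : s2 = (μ / 4 ^ j)⁻¹) {VC DC : ℝ}
    (hV : ∑ k ∈ Ico k₀ N, cAC N T S (c (k + 1)) W M Nm k ≤ VC)
    (hDC : ∑ k ∈ Ico k₀ N, eC N T S (rst (Q k) k (c (k + 1))) W k ≤ DC) :
    (1 / 8) * ∑ k ∈ Ico k₀ N, GW N R S T (k + 1) (pl (k + 1))
        (gSS (A (k + 1)) (c (k + 1)) W s1 s2 k (k + 1) (k + 1))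
      ≤ 1600 * √(s1 * s2 * ((2 * EA) * Es J H Qm)) + 45 * s2 * EA
        + s1 * (32 * Es J H Qm + 8 * VC + DC) := by
  have hμ := hW.hμ
  have h2 : 0 < s2 := by rw [e2]; positivity
  have hs1 : (0 : ℝ) < s1⁻¹ := inv_pos.2 h1
  have hVA := stkA0 hkN (R := R) (S := S) hs1 0 hA hE hD
  have e1 : s1 = (s1⁻¹ / 4 ^ 0)⁻¹ := by rw [pow_zero, div_one, inv_inv]
  have q0 : Es 0 EA ((((0 : ℕ) : ℝ) + 1) * EA) = 2 * EA := by
    unfold Es
    push_cast
    ring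
  have K := pair_fin0 (c := pl) (T := T) hpl hVA hW (j := 0) (j' := j) le_rfl hj (s1 := s1)
    (s2 := s2) e1 e2
    (g := fun k n n' m => (1 / 8) * gSS (A (k + 1)) (c (k + 1)) W s1 s2 k (k + 1) (k + 1) n n' m)
    (y1 := fun k n m => 9 * ow s1 (PAs (A (k + 1)) k (k + 1) n m)
      + chA (P k) (A (k + 1)) k (k + 1) n m)
    (y2 := fun k n m => 7 * ow s2 (XWs (c (k + 1)) W k (k + 1) n m)
      + 4 * qAC (c (k + 1)) W M Nm k (k + 1) n m + chC (Q k) (c (k + 1)) W k (k + 1) n m)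
    (fun k n m => add_nonneg (mul_nonneg (by norm_num) (ow_nonneg h1 (PAs_psd _ _ _ _ _)))
      (chA_nonneg _ _ _ _ _ _))
    (fun k n m => add_nonneg (add_nonneg (mul_nonneg (by norm_num)
      (ow_nonneg h2 (XW_psd h _ (k + 1) _ _ _))) (mul_nonneg (by norm_num)
        (qAC_nonneg h _ _ _ _ _))) (chC_nonneg h _ _ _ _ _ _))
    (Y1 := 9 * (2 * (2 * EA)) + EA) (Y2 := 7 * (4 * Es J H Qm) + 8 * VC + DC)
    (by
      have a1 := ow_sum hVA (j := 0) le_rfl e1 (X := fun k a n m => PAs (A (k + 1)) k a n m)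
        (fun k a n m => PAs_psd _ _ _ _ _) (C := 2) (by norm_num)
        (fun k a n m => le_of_eq (by unfold gA; ring))
      rw [q0] at a1
      have a2 : ∑ k ∈ Ico k₀ N, bsum N R S (k + 1) (k + 1) (fun n m =>
          9 * ow s1 (PAs (A (k + 1)) k (k + 1) n m) + chA (P k) (A (k + 1)) k (k + 1) n m)
          = 9 * ∑ k ∈ Ico k₀ N, bsum N R S (k + 1) (k + 1)
              (fun n m => ow s1 (PAs (A (k + 1)) k (k + 1) n m))
            + ∑ k ∈ Ico k₀ N, eA N R S (rst (P k) k (A (k + 1))) := by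
        rw [Finset.mul_sum, ← Finset.sum_add_distrib]
        refine Finset.sum_congr rfl fun k hk => ?_
        have hk' := mem_Ico.1 hk
        rw [← bsum_smul, ← bsum_chA (a := k + 1) (show k + 1 ≤ N by omega) hk'.2 R S, ← bsum_add]
      rw [a2]
      linarith)
    (by
      have a1 := ow_sum hW hj e2 (X := fun k a n m => XWs (c (k + 1)) W k a n m)
        (fun k a n m => XW_psd h _ (k + 1) _ _ _) (C := 4) (by norm_num)
        (fun k a n m => le_of_eq (by ring))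
      have a2 : ∑ k ∈ Ico k₀ N, bsum N T S (k + 1) (k + 1) (fun n m =>
          7 * ow s2 (XWs (c (k + 1)) W k (k + 1) n m)
            + 4 * qAC (c (k + 1)) W M Nm k (k + 1) n m + chC (Q k) (c (k + 1)) W k (k + 1) n m)
          = 7 * ∑ k ∈ Ico k₀ N, bsum N T S (k + 1) (k + 1)
              (fun n m => ow s2 (XWs (c (k + 1)) W k (k + 1) n m))
            + 8 * ∑ k ∈ Ico k₀ N, cAC N T S (c (k + 1)) W M Nm k
            + ∑ k ∈ Ico k₀ N, eC N T S (rst (Q k) k (c (k + 1))) W k := by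
        rw [Finset.mul_sum, Finset.mul_sum, ← Finset.sum_add_distrib, ← Finset.sum_add_distrib]
        refine Finset.sum_congr rfl fun k hk => ?_
        have hk' := mem_Ico.1 hk
        rw [← bsum_chC (a := k + 1) (show k + 1 ≤ N by omega) hk'.2 T S,
          show (8 : ℝ) * cAC N T S (c (k + 1)) W M Nm k
            = 4 * (2 * cAC N T S (c (k + 1)) W M Nm k) by ring,
          ← bsum_qAC (a := k + 1) (show k + 1 ≤ N by omega) hk'.2 T S, ← bsum_smul, ← bsum_smul,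
          ← bsum_add, ← bsum_add]
      rw [a2]
      linarith)
    (fun k k1 k2 n n' m => midSS h k2 h1 h2 (hA k k1 k2) (hC k k1 k2) (k + 1) (k + 1) n n' m)
  rw [q0] at K
  have e3 : ∑ k ∈ Ico k₀ N, GW N R S T (k + 1) (pl (k + 1)) (fun n n' m =>
        (1 / 8) * gSS (A (k + 1)) (c (k + 1)) W s1 s2 k (k + 1) (k + 1) n n' m)
      = (1 / 8) * ∑ k ∈ Ico k₀ N, GW N R S T (k + 1) (pl (k + 1))
        (gSS (A (k + 1)) (c (k + 1)) W s1 s2 k (k + 1) (k + 1)) := by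
    rw [Finset.mul_sum]
    exact Finset.sum_congr rfl fun k _ => GW_smul N R S T (k + 1) (pl (k + 1)) (1 / 8) _
  rw [e3] at K
  linarith

end

end Vale.Agent.P141.H389
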