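import Vale.Agent.P141.H92.RawP
import Vale.Agent.P141.H103.PotW
import Vale.Agent.P141.H389.PairSat

/-!
# The pair of a raw slot against a capped moving stack, families at time `k + 1` on scale `k`

`V k = PA (A (k + 1)) k`, `X k = XW (c (k + 1)) W k`. The middle step is made with the functions of
time `k + 1`; the change to the time `k + 2` is made on the squares of scale `k + 1` of the node, so
that births are seen on the nodes of the plane only.
-/

namespace Vale.Agent.P141.H389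

open Finset Matrix Vale.Agent.P141.PL Vale.Agent.P141.PL.H103 Vale.Agent.P141.H103
open Vale.Agent.P075 (Ix val phi delt rad GX res)
open Vale.Agent.P141.H585.PairCh (phs dls)
open Vale.Agent.P141.H505 (SG SD SC)
open Vale.Agent.P141.H336 (bsum bsum_mono bsum_nonneg bsum_add bsum_smul)
open Vale.Agent.P141.H92 (dh pairAC_TV half_change bthR)

noncomputable section

section mat

variable {n : Type*} [Fintype n] [DecidableEq n]

/-- pairing of a matrix below `τ` with a capped matrix -/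
theorem tr_phs_cs {s τ : ℝ} (hs : 0 < s) {E X : Matrix n n ℝ} (pE : E.PosSemidef)
    (cE : (τ • (1 : Matrix n n ℝ) - E).PosSemidef) (pX : X.PosSemidef) :
    (E * phs s X).trace ≤ √(τ * E.trace) * √(s * X.trace) := by
  have sE : Eᵀ = E := P075.psd_isSymm pE
  have sY : (phs s X)ᵀ = phs s X := P075.psd_isSymm (phs_psd hs pX)
  have h1 : (E * phs s X).trace ^ 2 ≤ (E * E).trace * (phs s X * phs s X).trace := by
    have h := PL.H804.trace_mul_sq_le E (phs s X)
    rwa [sE, sY] at h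
  have h2 : (E * E).trace ≤ τ * E.trace := by
    have := P075.trace_mul_le_left pE cE
    rwa [Matrix.smul_mul, Matrix.one_mul, trace_smul, smul_eq_mul] at this
  have h3 : (phs s X * phs s X).trace ≤ s * X.trace := H336.sq_phs_le pX hs
  have h4 : 0 ≤ (phs s X * phs s X).trace :=
    P075.trace_mul_nonneg (phs_psd hs pX) (phs_psd hs pX)
  have h5 : 0 ≤ τ * E.trace := (P075.trace_mul_nonneg pE pE).trans h2
  rw [← Real.sqrt_mul h5]
  refine Real.le_sqrt_of_sq_le (h1.trans ?_)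
  exact mul_le_mul h2 h3 h4 h5

end mat

variable {κ : Type*} [Fintype κ] [DecidableEq κ]

omit [Fintype κ] [DecidableEq κ] in
theorem GW_mo {N : ℕ} {R S T : ℤ} {k : ℕ} {c : ℤ} {g d : ℤ → ℤ → ℤ → ℝ}
    (H : ∀ n n' m, g n n' m ≤ d n n' m) : GW N R S T k c g ≤ GW N R S T k c d := by
  unfold GW
  refine mul_le_mul_of_nonneg_left ?_ (by positivity)
  refine Finset.sum_le_sum fun m _ => Finset.sum_le_sum fun n _ => ?_
  split_ifs
  · exact H _ _ _
  · exact le_rfl

/-- births of the raw slot on the nodes of the plane -/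
def BT (k₀ N : ℕ) (R S T : ℤ) (pl : ℕ → ℤ) (P : ℕ → ℤ → ℤ → Prop) (A : ℕ → ℤ → ℤ → ℝ)
    (c : ℕ → ℤ → ℤ → κ → ℝ) (W : ℤ → ℕ → ℤ → Matrix κ κ ℝ) (s : ℝ) : ℝ :=
  ∑ k ∈ Ico k₀ N, GW N R S T (k + 1) (pl (k + 1)) (fun n n' m =>
    bthR (P (k + 1)) (A (k + 2)) (c (k + 2)) W s (k + 1) (k + 1) (k + 1) n n' m)

theorem eC_nonneg {N : ℕ} {W Nn M Nm : ℤ → ℕ → ℤ → Matrix κ κ ℝ} (h : Wf N W Nn M Nm) (T S : ℤ)
    (c : ℤ → ℤ → κ → ℝ) (k : ℕ) : 0 ≤ eC N T S c W k :=
  Finset.sum_nonneg fun x _ => Finset.sum_nonneg fun y _ => by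
    have := (h.pd x k (ix k y)).posSemidef.dotProduct_mulVec_nonneg (c x y)
    rwa [star_trivial] at this

/-- **The pair of a raw slot against a capped moving stack, paths.** -/
theorem realT {N : ℕ} {W Nn M Nm : ℤ → ℕ → ℤ → Matrix κ κ ℝ} (h : Wf N W Nn M Nm)
    {k₀ : ℕ} (hkN : k₀ ≤ N) {R S T : ℤ} {pl : ℕ → ℤ} (hpl : H588.Pl pl) {τ s : ℝ} (hs : 0 < s)
    (hτ : 0 ≤ τ) (A : ℕ → ℤ → ℤ → ℝ) (c : ℕ → ℤ → ℤ → κ → ℝ) {P Q : ℕ → ℤ → ℤ → Prop}
    (hP : ∀ k, k₀ < k → k ≤ N → ∀ z m, ¬ P k z m → ∀ y ∈ iv k m, A (k + 1) z y = A k z y)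
    (hQ : ∀ k, k₀ < k → k ≤ N → ∀ x m, ¬ Q k x m → ∀ y ∈ iv k m, c (k + 1) x y = c k x y)
    (hA : ∀ k, k₀ ≤ k → k < N → ∀ n m,
      (τ • (1 : Matrix (Ix k) (Ix k) ℝ) - PA (A (k + 1)) k (k + 1) n m).PosSemidef)
    (hA' : ∀ k, k₀ < k → k ≤ N → ∀ n m,
      (τ • (1 : Matrix (Ix k) (Ix k) ℝ) - PA (A k) k k n m).PosSemidef) :
    (1 / 4) * ∑ k ∈ Ico k₀ N, GW N R S T (k + 1) (pl (k + 1))
        (gAC (A (k + 1)) (c (k + 1)) W s k (k + 1) (k + 1))
      ≤ √(TV k₀ N R S (fun k => PA (A (k + 1)) k)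
          * TV k₀ N T S (fun k a n m => phs s (XW (c (k + 1)) W k a n m)))
        + τ * s⁻¹ / 2 * ∑ k ∈ Ico k₀ N, GW N R S T (k + 1) (pl (k + 1)) (fun _ n' m =>
          dh s (XW (c (k + 1)) W k k) n' m)
        + τ * s⁻¹ / 2 * ∑ k ∈ Ico k₀ N, GW N R S T (k + 1) (pl (k + 1))
          (fun _ n' m => gC (c (k + 1)) W s k (k + 1) n' m)
        + 2 * τ * ∑ k ∈ Ico k₀ N, cAC N T S (c (k + 1)) W M Nm k
        + τ * ∑ k ∈ Ico k₀ N, eC N T S (rst (Q (k + 1)) (k + 1) (c (k + 2))) W (k + 1)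
        + BT k₀ N R S T pl P A c W s := by
  have H := pairAC_TV hkN hpl (P := fun k => PA (A (k + 1)) k)
    (W := fun k => XW (c (k + 1)) W k) (s2 := s) (t2 := τ) (R := R) (S := S) (T := T) hs
    (g := fun k n n' m => (1 / 4) * gAC (A (k + 1)) (c (k + 1)) W s k (k + 1) (k + 1) n n' m
      - ((τ * (s⁻¹ / 2) * gC (c (k + 1)) W s k (k + 1) n' m
        + τ * qAC (c (k + 1)) W M Nm k (k + 1) n' m)
        + (τ * (XW (rst (Q (k + 1)) (k + 1) (c (k + 2))) W (k + 1) (k + 1) n' m).trace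
        + bthR (P (k + 1)) (A (k + 2)) (c (k + 2)) W s (k + 1) (k + 1) (k + 1) n n' m)))
    (fun k a n m => PA_symm (A (k + 1)) k a n m) (fun k a n m => XW_psd h (c (k + 1)) k a n m)
    (fun k _ _ => PA_out N k (A (k + 1))) (fun k _ _ => XW_out N k (c (k + 1)) W) hA
    (fun k h1 h2 n n' m => by
      have q := nodeAC h h2 hs hτ (A (k + 1)) (c (k + 1)) (k + 1) (k + 1) n n' m
        (hA k h1 h2 n _) (hA k h1 h2 n _)
      have q2 := half_change h hs hτ (hP (k + 1) (by omega) (by omega))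
        (hQ (k + 1) (by omega) (by omega)) (k + 1) (k + 1) n n' m
        (hA' (k + 1) (by omega) (by omega) n m)
      linarith)
  have e : ∀ k, GW N R S T (k + 1) (pl (k + 1)) (fun n n' m =>
      (1 / 4) * gAC (A (k + 1)) (c (k + 1)) W s k (k + 1) (k + 1) n n' m
      - ((τ * (s⁻¹ / 2) * gC (c (k + 1)) W s k (k + 1) n' m
        + τ * qAC (c (k + 1)) W M Nm k (k + 1) n' m)
        + (τ * (XW (rst (Q (k + 1)) (k + 1) (c (k + 2))) W (k + 1) (k + 1) n' m).trace
        + bthR (P (k + 1)) (A (k + 2)) (c (k + 2)) W s (k + 1) (k + 1) (k + 1) n n' m)))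
      = (1 / 4) * GW N R S T (k + 1) (pl (k + 1))
          (gAC (A (k + 1)) (c (k + 1)) W s k (k + 1) (k + 1))
        - ((τ * (s⁻¹ / 2) * GW N R S T (k + 1) (pl (k + 1))
            (fun _ n' m => gC (c (k + 1)) W s k (k + 1) n' m)
          + τ * GW N R S T (k + 1) (pl (k + 1))
            (fun _ n' m => qAC (c (k + 1)) W M Nm k (k + 1) n' m))
          + (τ * GW N R S T (k + 1) (pl (k + 1)) (fun _ n' m =>
            (XW (rst (Q (k + 1)) (k + 1) (c (k + 2))) W (k + 1) (k + 1) n' m).trace)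
          + GW N R S T (k + 1) (pl (k + 1)) (fun n n' m =>
            bthR (P (k + 1)) (A (k + 2)) (c (k + 2)) W s (k + 1) (k + 1) (k + 1) n n' m))) := by
    intro k
    have s1 := GW_sub N R S T (k + 1) (pl (k + 1))
      (fun n n' m => (1 / 4) * gAC (A (k + 1)) (c (k + 1)) W s k (k + 1) (k + 1) n n' m)
      (fun n n' m => (τ * (s⁻¹ / 2) * gC (c (k + 1)) W s k (k + 1) n' m
        + τ * qAC (c (k + 1)) W M Nm k (k + 1) n' m)
        + (τ * (XW (rst (Q (k + 1)) (k + 1) (c (k + 2))) W (k + 1) (k + 1) n' m).trace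
        + bthR (P (k + 1)) (A (k + 2)) (c (k + 2)) W s (k + 1) (k + 1) (k + 1) n n' m)) 1
    simp only [one_mul] at s1
    rw [s1, GW_smul, GW_add, GW_add, GW_add, GW_smul, GW_smul, GW_smul]
  have e3 : ∑ k ∈ Ico k₀ N, GW N R S T (k + 1) (pl (k + 1)) (fun n n' m =>
      (1 / 4) * gAC (A (k + 1)) (c (k + 1)) W s k (k + 1) (k + 1) n n' m
      - ((τ * (s⁻¹ / 2) * gC (c (k + 1)) W s k (k + 1) n' m
        + τ * qAC (c (k + 1)) W M Nm k (k + 1) n' m)
        + (τ * (XW (rst (Q (k + 1)) (k + 1) (c (k + 2))) W (k + 1) (k + 1) n' m).trace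
        + bthR (P (k + 1)) (A (k + 2)) (c (k + 2)) W s (k + 1) (k + 1) (k + 1) n n' m)))
      = (1 / 4) * ∑ k ∈ Ico k₀ N, GW N R S T (k + 1) (pl (k + 1))
          (gAC (A (k + 1)) (c (k + 1)) W s k (k + 1) (k + 1))
        - ((τ * (s⁻¹ / 2) * ∑ k ∈ Ico k₀ N, GW N R S T (k + 1) (pl (k + 1))
            (fun _ n' m => gC (c (k + 1)) W s k (k + 1) n' m)
          + τ * ∑ k ∈ Ico k₀ N, GW N R S T (k + 1) (pl (k + 1))
            (fun _ n' m => qAC (c (k + 1)) W M Nm k (k + 1) n' m))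
          + (τ * ∑ k ∈ Ico k₀ N, GW N R S T (k + 1) (pl (k + 1)) (fun _ n' m =>
            (XW (rst (Q (k + 1)) (k + 1) (c (k + 2))) W (k + 1) (k + 1) n' m).trace)
          + BT k₀ N R S T pl P A c W s)) := by
    rw [Finset.sum_congr rfl fun k _ => e k, BT]
    simp only [Finset.mul_sum, ← Finset.sum_add_distrib, ← Finset.sum_sub_distrib]
  rw [e3] at H
  have h3 : ∑ k ∈ Ico k₀ N, GW N R S T (k + 1) (pl (k + 1))
            (fun _ n' m => qAC (c (k + 1)) W M Nm k (k + 1) n' m)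
      ≤ 2 * ∑ k ∈ Ico k₀ N, cAC N T S (c (k + 1)) W M Nm k := by
    rw [Finset.mul_sum]
    exact Finset.sum_le_sum fun k hk => GW_qAC h (c (k + 1)) (mem_Ico.1 hk).2 R S T _
  have h4 := mul_le_mul_of_nonneg_left h3 hτ
  have h5 : ∑ k ∈ Ico k₀ N, GW N R S T (k + 1) (pl (k + 1)) (fun _ n' m =>
            (XW (rst (Q (k + 1)) (k + 1) (c (k + 2))) W (k + 1) (k + 1) n' m).trace)
      ≤ ∑ k ∈ Ico k₀ N, eC N T S (rst (Q (k + 1)) (k + 1) (c (k + 2))) W (k + 1) := by
    refine Finset.sum_le_sum fun k hk => ?_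
    have hk' := mem_Ico.1 hk
    have b := H92.GW_right N R S T (k + 1) (pl (k + 1)) (f := fun n' m =>
      (XW (rst (Q (k + 1)) (k + 1) (c (k + 2))) W (k + 1) (k + 1) n' m).trace)
      (fun n m => (XW_psd h _ (k + 1) _ _ _).trace_nonneg)
    refine b.trans (le_of_eq ?_)
    exact sum_tr_QW (show k + 1 ≤ N by omega) (show k + 1 ≤ N by omega) T S
      (rst (Q (k + 1)) (k + 1) (c (k + 2))) fun m x => W x (k + 1) m
  have h6 := mul_le_mul_of_nonneg_left h5 hτ
  linarith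

/-- the restriction to row pieces outside the changed squares is zero -/
theorem PA_rst_zero {n m : ℤ} {K : ℕ} {P : ℤ → ℤ → Prop} (A : ℤ → ℤ → ℝ)
    (h : ∀ z ∈ iv K n, ¬ P z m) : PA (rst P K A) K K n m = 0 := by
  have e : PA (rst P K A) K K n m
      = QW K K (un (rst P K A)) (fun _ => (1 : Matrix Unit Unit ℝ)⁻¹) n m := Xg_eq K K _ n m
  rw [e]
  ext j j'
  rw [QW, Matrix.zero_apply]
  refine mul_eq_zero_of_right _ (Finset.sum_eq_zero fun z hz => ?_)
  have hz' : ∀ i : Ix K, un (rst P K A) z (2 ^ K * m + val K i) = 0 := by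
    intro i
    funext u
    unfold un rst
    rw [cell_ix, if_neg (h z hz)]
    rfl
  rw [hz' j, zero_dotProduct]

/-- **The births on the nodes of the plane.** `Bo k n m` : the square changes. -/
theorem BT_le {N : ℕ} {W Nn M Nm : ℤ → ℕ → ℤ → Matrix κ κ ℝ} (h : Wf N W Nn M Nm)
    {k₀ : ℕ} {R S T : ℤ} {pl : ℕ → ℤ} {τ s : ℝ} (hs : 0 < s)
    (hτ : 0 ≤ τ) (A : ℕ → ℤ → ℤ → ℝ) (c : ℕ → ℤ → ℤ → κ → ℝ) {P : ℕ → ℤ → ℤ → Prop}
    {Bo : ℕ → ℤ → ℤ → Prop} [∀ k n m, Decidable (Bo k n m)]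
    (hB : ∀ k z m, P k z m → Bo k (ix k z) m)
    (cE : ∀ k, k₀ < k → k ≤ N → ∀ n m,
      (τ • (1 : Matrix (Ix k) (Ix k) ℝ) - PA (A (k + 1)) k k n m).PosSemidef)
    {DA CR : ℝ}
    (hDA : ∑ k ∈ Ico k₀ N, eA N R S (rst (P (k + 1)) (k + 1) (A (k + 2))) ≤ DA)
    (hCR : ∑ k ∈ Ico k₀ N, GW N R S T (k + 1) (pl (k + 1)) (fun n n' m =>
      if Bo (k + 1) n m then (XW (c (k + 2)) W (k + 1) (k + 1) n' m).trace else 0) ≤ CR) :
    BT k₀ N R S T pl P A c W s ≤ √(τ * DA) * √(s * CR) := by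
  classical
  -- one scale
  have one : ∀ k ∈ Ico k₀ N, GW N R S T (k + 1) (pl (k + 1)) (fun n n' m =>
      bthR (P (k + 1)) (A (k + 2)) (c (k + 2)) W s (k + 1) (k + 1) (k + 1) n n' m)
      ≤ √(τ * eA N R S (rst (P (k + 1)) (k + 1) (A (k + 2))))
        * √(s * GW N R S T (k + 1) (pl (k + 1)) (fun n n' m =>
          if Bo (k + 1) n m then (XW (c (k + 2)) W (k + 1) (k + 1) n' m).trace else 0)) := by
    intro k hk
    have hk' := mem_Ico.1 hk
    set E : ℤ → ℤ → Matrix (Ix (k + 1)) (Ix (k + 1)) ℝ := fun n m =>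
      PA (rst (P (k + 1)) (k + 1) (A (k + 2))) (k + 1) (k + 1) n m with hE
    set X : ℤ → ℤ → Matrix (Ix (k + 1)) (Ix (k + 1)) ℝ := fun n' m =>
      XW (c (k + 2)) W (k + 1) (k + 1) n' m with hX
    have pE : ∀ n m, (E n m).PosSemidef := fun n m => PA_psd _ _ _ _ _
    have pX : ∀ n m, (X n m).PosSemidef := fun n m => XW_psd h _ _ _ _ _
    -- the born part is below the cap
    have cE' : ∀ n m, (τ • (1 : Matrix (Ix (k + 1)) (Ix (k + 1)) ℝ) - E n m).PosSemidef := by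
      intro n m
      have h1 := cE (k + 1) (by omega) (by omega) n m
      have h2 := PA_change (k := k + 1) (P := P (k + 1)) (A := fun z y =>
        if P (k + 1) z (ix (k + 1) y) then 0 else A (k + 2) z y) (A' := A (k + 2))
        (fun z m hP y hy => by rw [mem_iv] at hy; simp only [hy, hP, if_false]) (k + 1) n m
      have h3 : (PA (fun z y => if P (k + 1) z (ix (k + 1) y) then 0 else A (k + 2) z y)
          (k + 1) (k + 1) n m).PosSemidef := PA_psd _ _ _ _ _
      have h4 : rst (P (k + 1)) (k + 1) (fun z y =>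
          if P (k + 1) z (ix (k + 1) y) then 0 else A (k + 2) z y) = fun _ _ => (0 : ℝ) := by
        funext z y
        unfold rst
        by_cases hz : P (k + 1) z (ix (k + 1) y)
        · simp only [hz, if_true]
        · simp only [hz, if_false]
      have h5 : PA (fun _ _ => (0 : ℝ)) (k + 1) (k + 1) n m = 0 := by
        have e : PA (fun _ _ => (0 : ℝ)) (k + 1) (k + 1) n m
            = QW (k + 1) (k + 1) (un fun _ _ => (0 : ℝ))
              (fun _ => (1 : Matrix Unit Unit ℝ)⁻¹) n m := Xg_eq (k + 1) (k + 1) _ n m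
        rw [e]
        ext j j'
        rw [QW, Matrix.zero_apply]
        refine mul_eq_zero_of_right _ (Finset.sum_eq_zero fun z hz => ?_)
        have : un (fun _ _ => (0 : ℝ)) z (2 ^ (k + 1) * m + val (k + 1) j) = 0 := rfl
        rw [this, zero_dotProduct]
      rw [h4, h5, add_zero] at h2
      have h6 : τ • (1 : Matrix (Ix (k + 1)) (Ix (k + 1)) ℝ) - E n m
          = (τ • 1 - PA (A (k + 1 + 1)) (k + 1) (k + 1) n m)
            + PA (fun z y => if P (k + 1) z (ix (k + 1) y) then 0 else A (k + 2) z y)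
              (k + 1) (k + 1) n m := by
        rw [show A (k + 1 + 1) = A (k + 2) from rfl, ← h2]
        abel
      rw [h6]
      exact h1.add h3
    have pt : ∀ n n' m, bthR (P (k + 1)) (A (k + 2)) (c (k + 2)) W s (k + 1) (k + 1) (k + 1) n n' m
        ≤ √(τ * (E n m).trace) * √(s * if Bo (k + 1) n m then (X n' m).trace else 0) := by
      intro n n' m
      by_cases hb : Bo (k + 1) n m
      · rw [if_pos hb]
        exact tr_phs_cs hs (pE n m) (cE' n m) (pX n' m)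
      · rw [if_neg hb]
        have z0 : E n m = 0 := PA_rst_zero (A (k + 2)) (fun z hz hp => by
          have := hB (k + 1) z m hp
          rw [mem_iv.1 hz] at this
          exact hb this)
        have : bthR (P (k + 1)) (A (k + 2)) (c (k + 2)) W s (k + 1) (k + 1) (k + 1) n n' m
            = (E n m * phs s (X n' m)).trace := rfl
        rw [this, z0, Matrix.zero_mul, trace_zero]
        positivity
    refine (GW_mo fun n n' m => pt n n' m).trans ?_
    have hcs := GW_cs N R S T (k + 1) (pl (k + 1)) (α := fun n _ m => τ * (E n m).trace)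
      (β := fun n n' m => s * if Bo (k + 1) n m then (X n' m).trace else 0)
      (fun n _ m => mul_nonneg hτ (pE n m).trace_nonneg)
      (fun n n' m => mul_nonneg hs.le (by
        split_ifs
        · exact (pX n' m).trace_nonneg
        · exact le_rfl))
    refine hcs.trans ?_
    have l1 : GW N R S T (k + 1) (pl (k + 1)) (fun n _ m => τ * (E n m).trace)
        ≤ τ * eA N R S (rst (P (k + 1)) (k + 1) (A (k + 2))) := by
      rw [GW_smul]
      refine mul_le_mul_of_nonneg_left ?_ hτ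
      have b := H92.GW_left N R S T (k + 1) (pl (k + 1)) (f := fun n m => (E n m).trace)
        (fun n m => (pE n m).trace_nonneg)
      refine b.trans (le_of_eq ?_)
      exact sum_tr_PA (show k + 1 ≤ N by omega) (show k + 1 ≤ N by omega) R S _
    have l2 : GW N R S T (k + 1) (pl (k + 1)) (fun n n' m =>
        s * if Bo (k + 1) n m then (X n' m).trace else 0)
        = s * GW N R S T (k + 1) (pl (k + 1)) (fun n n' m =>
          if Bo (k + 1) n m then (X n' m).trace else 0) := GW_smul _ _ _ _ _ _ _ _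
    rw [l2]
    exact mul_le_mul_of_nonneg_right (Real.sqrt_le_sqrt l1) (Real.sqrt_nonneg _)
  unfold BT
  refine (Finset.sum_le_sum one).trans ?_
  have n1 : ∀ k, 0 ≤ τ * eA N R S (rst (P (k + 1)) (k + 1) (A (k + 2))) := fun k =>
    mul_nonneg hτ (eA_nonneg _ _ _ _)
  have n2 : ∀ k, 0 ≤ s * GW N R S T (k + 1) (pl (k + 1)) (fun n n' m =>
          if Bo (k + 1) n m then (XW (c (k + 2)) W (k + 1) (k + 1) n' m).trace else 0) :=
    fun k => mul_nonneg hs.le (H103.GW_nonneg _ _ _ _ _ _ fun n n' m => by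
      split_ifs
      · exact (XW_psd h _ _ _ _ _).trace_nonneg
      · exact le_rfl)
  refine (Real.sum_sqrt_mul_sqrt_le (Ico k₀ N) n1 n2).trans ?_
  rw [← Finset.mul_sum, ← Finset.mul_sum]
  exact mul_le_mul (Real.sqrt_le_sqrt (mul_le_mul_of_nonneg_left hDA hτ))
    (Real.sqrt_le_sqrt (mul_le_mul_of_nonneg_left hCR hs.le)) (Real.sqrt_nonneg _)
    (Real.sqrt_nonneg _)

end

end Vale.Agent.P141.H389
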