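import Vale.Agent.P141.H389.PathA
import Vale.Agent.P141.H28.RidgeS
import Vale.Agent.P141.H92.PairFin

/-!
# The pair `(A, C)` with both slots capped, time dependent families

Node inequality from `H28.mid_sat`, change step, and the plane sums of all losses.
-/

namespace Vale.Agent.P141.H389

open Finset Matrix Vale.Agent.P141.PL Vale.Agent.P141.PL.H103 Vale.Agent.P141.H103
open Vale.Agent.P075 (Ix val phi delt rad GX res)
open Vale.Agent.P141.H585.PairCh (phs dls)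
open Vale.Agent.P141.H505 (SG SD SC)
open Vale.Agent.P141.H336 (bsum bsum_mono bsum_nonneg bsum_add bsum_smul)

noncomputable section

/-! ### Change of both slots -/

section mat

variable {n : Type*} [Fintype n] [DecidableEq n]

/-- both slots capped -/
theorem change_sat {s1 s2 : ℝ} (h1 : 0 < s1) (h2 : 0 < s2) {V V' E B W W' F G : Matrix n n ℝ}
    (pV : V.PosSemidef) (pV' : V'.PosSemidef) (pE : E.PosSemidef) (pB : B.PosSemidef)
    (pW : W.PosSemidef) (pW' : W'.PosSemidef) (pF : F.PosSemidef) (pG : G.PosSemidef)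
    (eV : V + E = V' + B) (eW : W + F = W' + G) :
    (phs s1 V' * phs s2 W').trace
      ≤ (phs s1 V * phs s2 W).trace + s2 * E.trace + s1 * F.trace := by
  have pWF : (W + F).PosSemidef := pW.add pF
  have a1 : (phs s1 V' * phs s2 W').trace ≤ (phs s1 V' * phs s2 (W + F)).trace := by
    have := phs_mono h2 pW' pG
    rw [← eW] at this
    exact P075.trace_mul_le_right (phs_psd h1 pV') this
  have a2 : (phs s1 V' * phs s2 (W + F)).trace ≤ (phs s1 (V + E) * phs s2 (W + F)).trace := by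
    have := phs_mono h1 pV' pB
    rw [← eV] at this
    exact P075.trace_mul_le_left (phs_psd h2 pWF) this
  have a3 : ((phs s1 (V + E) - phs s1 V) * phs s2 (W + F)).trace
      ≤ s2 * (phs s1 (V + E) - phs s1 V).trace := by
    have := P075.trace_mul_le_right (phs_mono h1 pV pE) (phs_cap h2 pWF)
    rwa [Matrix.mul_smul, Matrix.mul_one, trace_smul, smul_eq_mul] at this
  have a4 : (phs s1 V * (phs s2 (W + F) - phs s2 W)).trace
      ≤ s1 * (phs s2 (W + F) - phs s2 W).trace := by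
    have := P075.trace_mul_le_left (phs_mono h2 pW pF) (phs_cap h1 pV)
    rwa [Matrix.smul_mul, Matrix.one_mul, trace_smul, smul_eq_mul] at this
  rw [Matrix.sub_mul, trace_sub, trace_sub] at a3
  rw [Matrix.mul_sub, trace_sub, trace_sub] at a4
  have a5 := tr_phs_add_le h1 pV pE
  have a6 := tr_phs_add_le h2 pW pF
  have a7 : s2 * ((phs s1 (V + E)).trace - (phs s1 V).trace) ≤ s2 * E.trace :=
    mul_le_mul_of_nonneg_left (by linarith) h2.le
  have a8 : s1 * ((phs s2 (W + F)).trace - (phs s2 W).trace) ≤ s1 * F.trace :=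
    mul_le_mul_of_nonneg_left (by linarith) h1.le
  linarith

/-- first slot raw: the price of the change of the first slot stays a pairing -/
theorem change_sr {s2 τ : ℝ} (h2 : 0 < s2) {V V' E B W W' F G : Matrix n n ℝ}
    (pV : V.PosSemidef) (cV : (τ • (1 : Matrix n n ℝ) - V).PosSemidef)
    (pB : B.PosSemidef)
    (pW : W.PosSemidef) (pW' : W'.PosSemidef) (pF : F.PosSemidef) (pG : G.PosSemidef)
    (eV : V + E = V' + B) (eW : W + F = W' + G) :
    (V' * phs s2 W').trace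
      ≤ (V * phs s2 W).trace + (E * phs s2 W').trace + τ * F.trace := by
  have a1 : (V' * phs s2 W').trace ≤ ((V + E) * phs s2 W').trace := by
    rw [eV, Matrix.add_mul, trace_add]
    have := P075.trace_mul_nonneg pB (phs_psd h2 pW')
    linarith
  have a2 : (V * phs s2 W').trace ≤ (V * phs s2 (W + F)).trace := by
    have := phs_mono h2 pW' pG
    rw [← eW] at this
    exact P075.trace_mul_le_right pV this
  have a4 : (V * (phs s2 (W + F) - phs s2 W)).trace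
      ≤ τ * (phs s2 (W + F) - phs s2 W).trace := by
    have := P075.trace_mul_le_left (phs_mono h2 pW pF) cV
    rwa [Matrix.smul_mul, Matrix.one_mul, trace_smul, smul_eq_mul] at this
  rw [Matrix.add_mul, trace_add] at a1
  rw [Matrix.mul_sub, trace_sub, trace_sub] at a4
  have a6 := tr_phs_add_le h2 pW pF
  by_cases hτ : 0 ≤ τ
  · have a8 : τ * ((phs s2 (W + F)).trace - (phs s2 W).trace) ≤ τ * F.trace :=
      mul_le_mul_of_nonneg_left (by linarith) hτ
    linarith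
  · -- then `V = 0` cannot be below a negative multiple of the identity unless `n` is empty
    have hn : IsEmpty n := by
      by_contra hne
      rw [not_isEmpty_iff] at hne
      obtain ⟨i⟩ := hne
      have q1 := (pV.add cV).diag_nonneg (i := i)
      rw [add_sub_cancel, Matrix.smul_apply, Matrix.one_apply_eq, smul_eq_mul, mul_one] at q1
      exact hτ q1
    simp [Matrix.trace, Finset.univ_eq_empty]

end mat

/-! ### The node inequality -/

section node

variable {κ : Type*} [Fintype κ] [DecidableEq κ]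

/-- gain of the pair, both slots capped -/
def gSS (A : ℤ → ℤ → ℝ) (b : ℤ → ℤ → κ → ℝ) (W : ℤ → ℕ → ℤ → Matrix κ κ ℝ) (s1 s2 : ℝ) (k : ℕ)
    (aA aC : ℕ) (n n' m : ℤ) : ℝ :=
  (phs s1 (PAs A k aA n m) * (rad (Ix k) * phs s2 (XWs b W k aC n' m) * rad (Ix k))).trace

/-- one level of the own middle defect -/
def ow {ι : Type*} [Fintype ι] [DecidableEq ι] (s : ℝ) (X : Matrix (ι ⊕ ι) (ι ⊕ ι) ℝ) : ℝ :=
  s * (phi (s⁻¹ • X) * (rad ι * phi (s⁻¹ • X) * rad ι)).trace

theorem nodeSS {N : ℕ} {W Nn M Nm : ℤ → ℕ → ℤ → Matrix κ κ ℝ} (h : Wf N W Nn M Nm) {k : ℕ}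
    (hk : k < N) {s1 s2 : ℝ} (h1 : 0 < s1) (h2 : 0 < s2) (A : ℤ → ℤ → ℝ) (b : ℤ → ℤ → κ → ℝ)
    (aA aC : ℕ) (n n' m : ℤ) :
    (phs s1 (PA A (k + 1) aA n m) * phs s2 (XW b W (k + 1) aC n' m)).trace
        + (1 / 8) * gSS A b W s1 s2 k aA aC n n' m
      ≤ (1 / 2) * ((phs s1 (PA A k aA n (2 * m)) * phs s2 (XW b W k aC n' (2 * m))).trace
          + (phs s1 (PA A k aA n (2 * m + 1)) * phs s2 (XW b W k aC n' (2 * m + 1))).trace)
        + s2 * (9 * ow s1 (PAs A k aA n m))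
        + s1 * (7 * ow s2 (XWs b W k aC n' m) + 4 * qAC b W M Nm k aC n' m) := by
  have H := H28.mid_sat (μ := s1⁻¹) (ν := s2⁻¹) (inv_pos.2 h1) (inv_pos.2 h2)
    (Θ := blW aC n' (fun x => W x (k + 1) m)) (Θ₀ := blW aC n' (fun x => W x k (2 * m)))
    (Θ₁ := blW aC n' (fun x => W x k (2 * m + 1))) (T := blW aC n' (fun x => (W x (k + 1) m)⁻¹))
    (T₀ := blW aC n' (fun x => (W x k (2 * m))⁻¹))
    (T₁ := blW aC n' (fun x => (W x k (2 * m + 1))⁻¹))
    (N := blW aC n' (fun x => Nn x (k + 1) m))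
    (M := blW aC n' (fun x => M x (k + 1) m)) (Nm := blW aC n' (fun x => Nm x (k + 1) m))
    (blW_psd (fun x => (h.pd x _ _).posSemidef) _ _)
    (blW_psd (fun x => (h.pd x _ _).posSemidef) _ _)
    (blW_psd (fun x => (h.pd x _ _).posSemidef) _ _) (blW_mul_inv (fun x => h.pd x _ _) _ _)
    (blW_mul_inv (fun x => h.pd x _ _) _ _) (blW_mul_inv (fun x => h.pd x _ _) _ _)
    (blW_psd (fun x => (h.pd x _ _).inv.posSemidef) _ _)
    (blW_psd (fun x => (h.pd x _ _).inv.posSemidef) _ _)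
    (blW_psd (fun x => (h.pd x _ _).inv.posSemidef) _ _)
    (by rw [← blW_add, ← blW_add]; simp only [h.left _ k m hk])
    (by rw [← blW_add, ← blW_sub]; simp only [h.right _ k m hk])
    (blW_symm (fun x => h.sN x _ _) _ _) (blW_symm (fun x => h.sM x _ _) _ _)
    (blW_psd (fun x => h.pNm x _ _) _ _)
    (by rw [← blW_add]; exact blW_psd (fun x => h.pN x _ _) _ _)
    (rws b aC k n' (2 * m)) (rws b aC k n' (2 * m + 1)) (QWs_eq b aC k n' m _)
    (PAs_psd A k aA n m) (PA_psd A k aA n (2 * m)) (PA_psd A k aA n (2 * m + 1))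
    (PAs_split A k aA n m)
  rw [← blW_add, ← blW_sub, ← blW_mul, ← blW_mul, ← blW_mul, ← blW_mul, ← blW_mul,
    ← blW_mul, ← QW_eq, ← QW_eq] at H
  simp only [ps_eq] at H
  have q := qAC_eq h hk b aC n' m
  have p2 : QWs aC k b (fun x => W x (k + 1) m) n' m = XWs b W k aC n' m := rfl
  rw [p2] at H
  have f1 : (phs s1 (PA A (k + 1) aA n m) * phs s2 (XW b W (k + 1) aC n' m)).trace
      = (phs s1 (PAs A k aA n m) * phs s2 (XWs b W k aC n' m)).trace := rfl
  -- signs of the two monotone parts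
  have g1 : ∀ m', 0 ≤ ((rws b aC k n' m')ᵀ * blW aC n' (fun x => M x (k + 1) m
      * (W x (k + 1) m)⁻¹ * M x (k + 1) m) * rws b aC k n' m').trace := by
    intro m'
    rw [tr_quad]
    exact mul_nonneg (by positivity) (Finset.sum_nonneg fun x _ => Finset.sum_nonneg fun y _ =>
      quad_nonneg (h.pd x (k + 1) m) (h.sM x (k + 1) m) (b x y))
  have g2 : ∀ m', 0 ≤ ((rws b aC k n' m')ᵀ * blW aC n' (fun x => Nm x (k + 1) m)
      * rws b aC k n' m').trace := by
    intro m'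
    rw [tr_quad]
    refine mul_nonneg (by positivity) (Finset.sum_nonneg fun x _ => Finset.sum_nonneg fun y _ => ?_)
    have h3 := (h.pNm x (k + 1) m).dotProduct_mulVec_nonneg (b x y)
    rwa [star_trivial] at h3
  have g10 := g1 (2 * m)
  have g11 := g1 (2 * m + 1)
  have g20 := g2 (2 * m)
  have g21 := g2 (2 * m + 1)
  have i1 : (s1⁻¹)⁻¹ = s1 := inv_inv s1
  have i2 : (s2⁻¹)⁻¹ = s2 := inv_inv s2
  rw [i1, i2] at H
  rw [f1, gSS, ow, ow, ← q]
  unfold XW
  set X1 := ((rws b aC k n' (2 * m))ᵀ * blW aC n' (fun x => M x (k + 1) m * (W x (k + 1) m)⁻¹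
          * M x (k + 1) m) * rws b aC k n' (2 * m)).trace
  set X2 := ((rws b aC k n' (2 * m + 1))ᵀ * blW aC n' (fun x => M x (k + 1) m
          * (W x (k + 1) m)⁻¹ * M x (k + 1) m) * rws b aC k n' (2 * m + 1)).trace
  set X3 := ((rws b aC k n' (2 * m))ᵀ * blW aC n' (fun x => Nm x (k + 1) m)
          * rws b aC k n' (2 * m)).trace
  set X4 := ((rws b aC k n' (2 * m + 1))ᵀ * blW aC n' (fun x => Nm x (k + 1) m)
          * rws b aC k n' (2 * m + 1)).trace
  have z : 0 ≤ s1 * (2 * (X1 + X2) + (X3 + X4)) := by positivity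
  refine H.trans ?_
  linarith

/-! ### Change step in the real letters -/

/-- trace of the changed part of the scalar slot at the two halves -/
def chA (P : ℤ → ℤ → Prop) (A' : ℤ → ℤ → ℝ) (k a : ℕ) (n m : ℤ) : ℝ :=
  (1 / 2) * ((PA (rst P k A') k a n (2 * m)).trace + (PA (rst P k A') k a n (2 * m + 1)).trace)

/-- trace of the changed part of the stack at the two halves (weights of the halves) -/
def chC (Q : ℤ → ℤ → Prop) (c' : ℤ → ℤ → κ → ℝ) (W : ℤ → ℕ → ℤ → Matrix κ κ ℝ) (k a : ℕ)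
    (n m : ℤ) : ℝ :=
  (1 / 2) * ((XW (rst Q k c') W k a n (2 * m)).trace
    + (XW (rst Q k c') W k a n (2 * m + 1)).trace)

/-- **the middle inequality with changes**, both slots capped -/
theorem midSS {N : ℕ} {W Nn M Nm : ℤ → ℕ → ℤ → Matrix κ κ ℝ} (h : Wf N W Nn M Nm) {k : ℕ}
    (hk : k < N) {s1 s2 : ℝ} (h1 : 0 < s1) (h2 : 0 < s2) {A A' : ℤ → ℤ → ℝ}
    {c c' : ℤ → ℤ → κ → ℝ} {P Q : ℤ → ℤ → Prop}
    (hA : ∀ z m, ¬ P z m → ∀ y ∈ iv k m, A' z y = A z y)
    (hC : ∀ x m, ¬ Q x m → ∀ y ∈ iv k m, c' x y = c x y) (aA aC : ℕ) (n n' m : ℤ) :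
    (phs s1 (PA A' (k + 1) aA n m) * phs s2 (XW c' W (k + 1) aC n' m)).trace
        + (1 / 8) * gSS A' c' W s1 s2 k aA aC n n' m
      ≤ (1 / 2) * ((phs s1 (PA A k aA n (2 * m)) * phs s2 (XW c W k aC n' (2 * m))).trace
          + (phs s1 (PA A k aA n (2 * m + 1)) * phs s2 (XW c W k aC n' (2 * m + 1))).trace)
        + s2 * (9 * ow s1 (PAs A' k aA n m) + chA P A' k aA n m)
        + s1 * (7 * ow s2 (XWs c' W k aC n' m) + 4 * qAC c' W M Nm k aC n' m
          + chC Q c' W k aC n' m) := by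
  have H := nodeSS h hk h1 h2 A' c' aA aC n n' m
  have ch : ∀ m', (phs s1 (PA A' k aA n m') * phs s2 (XW c' W k aC n' m')).trace
      ≤ (phs s1 (PA A k aA n m') * phs s2 (XW c W k aC n' m')).trace
        + s2 * (PA (rst P k A') k aA n m').trace + s1 * (XW (rst Q k c') W k aC n' m').trace := by
    intro m'
    exact change_sat h1 h2 (PA_psd A k aA n m') (PA_psd A' k aA n m')
      (PA_psd (rst P k A') k aA n m') (PA_psd (rst P k A) k aA n m') (XW_psd h c k aC n' m')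
      (XW_psd h c' k aC n' m') (XW_psd h (rst Q k c') k aC n' m')
      (XW_psd h (rst Q k c) k aC n' m') (PA_change hA aA n m')
      (QW_change hC aC (fun x => W x k m') n' m')
  have c0 := ch (2 * m)
  have c1 := ch (2 * m + 1)
  unfold chA chC
  linarith

/-- **the middle inequality with changes**, first slot raw -/
theorem midSR {N : ℕ} {W Nn M Nm : ℤ → ℕ → ℤ → Matrix κ κ ℝ} (h : Wf N W Nn M Nm) {k : ℕ}
    (hk : k < N) {τ s : ℝ} (hs : 0 < s) (hτ : 0 ≤ τ) {A A' : ℤ → ℤ → ℝ}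
    {c c' : ℤ → ℤ → κ → ℝ} {P Q : ℤ → ℤ → Prop}
    (hA : ∀ z m, ¬ P z m → ∀ y ∈ iv k m, A' z y = A z y)
    (hC : ∀ x m, ¬ Q x m → ∀ y ∈ iv k m, c' x y = c x y) (aA aC : ℕ) (n n' m : ℤ)
    (cap : ∀ m', (τ • (1 : Matrix (Ix k) (Ix k) ℝ) - PA A k aA n m').PosSemidef)
    (cap' : ∀ m', (τ • (1 : Matrix (Ix k) (Ix k) ℝ) - PA A' k aA n m').PosSemidef) :
    (PA A' (k + 1) aA n m * phs s (XW c' W (k + 1) aC n' m)).trace
        + (1 / 4) * gAC A' c' W s k aA aC n n' m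
      ≤ (1 / 2) * ((PA A k aA n (2 * m) * phs s (XW c W k aC n' (2 * m))).trace
          + (PA A k aA n (2 * m + 1) * phs s (XW c W k aC n' (2 * m + 1))).trace)
        + (1 / 2) * ((PA (rst P k A') k aA n (2 * m) * phs s (XW c' W k aC n' (2 * m))).trace
          + (PA (rst P k A') k aA n (2 * m + 1) * phs s (XW c' W k aC n' (2 * m + 1))).trace)
        + τ * (s⁻¹ / 2 * gC c' W s k aC n' m + qAC c' W M Nm k aC n' m
          + chC Q c' W k aC n' m) := by
  have H := nodeAC h hk hs hτ A' c' aA aC n n' m (cap' _) (cap' _)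
  have ch : ∀ m', (PA A' k aA n m' * phs s (XW c' W k aC n' m')).trace
      ≤ (PA A k aA n m' * phs s (XW c W k aC n' m')).trace
        + (PA (rst P k A') k aA n m' * phs s (XW c' W k aC n' m')).trace
        + τ * (XW (rst Q k c') W k aC n' m').trace := by
    intro m'
    exact change_sr hs (PA_psd A k aA n m') (cap m') (PA_psd (rst P k A) k aA n m')
      (XW_psd h c k aC n' m')
      (XW_psd h c' k aC n' m') (XW_psd h (rst Q k c') k aC n' m')
      (XW_psd h (rst Q k c) k aC n' m') (PA_change hA aA n m')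
      (QW_change hC aC (fun x => W x k m') n' m')
  have c0 := ch (2 * m)
  have c1 := ch (2 * m + 1)
  unfold chC
  linarith

end node

/-! ### The plane sums of the losses -/

section sums

variable {κ : Type*} [Fintype κ] [DecidableEq κ]

/-- energy of the slot `c` with the weights of scale `k` -/
def eC (N : ℕ) (T S : ℤ) (c : ℤ → ℤ → κ → ℝ) (W : ℤ → ℕ → ℤ → Matrix κ κ ℝ) (k : ℕ) : ℝ :=
  ∑ x ∈ iv N T, ∑ y ∈ iv N S, c x y ⬝ᵥ W x k (ix k y) *ᵥ c x y

omit [DecidableEq κ] in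
/-- two halves -/
theorem bsum_two {N a k : ℕ} (hk : k < N) (T S : ℤ) (f : ℤ → ℤ → ℝ) :
    bsum N T S (k + 1) a (fun n m => (1 / 2) * (f n (2 * m) + f n (2 * m + 1)))
      = bsum N T S k a f := H336.bsum_mid hk T S f

theorem bsum_chA {N a k : ℕ} (ha : a ≤ N) (hk : k < N) (R S : ℤ) (P : ℤ → ℤ → Prop)
    (A' : ℤ → ℤ → ℝ) :
    bsum N R S (k + 1) a (chA P A' k a) = eA N R S (rst P k A') := by
  have e := bsum_two (a := a) hk R S fun n m => (PA (rst P k A') k a n m).trace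
  have e2 := sum_tr_PA ha hk.le R S (rst P k A')
  unfold chA
  rw [e]
  exact e2

theorem bsum_chC {N a k : ℕ} (ha : a ≤ N) (hk : k < N) (T S : ℤ) (Q : ℤ → ℤ → Prop)
    (c' : ℤ → ℤ → κ → ℝ) (W : ℤ → ℕ → ℤ → Matrix κ κ ℝ) :
    bsum N T S (k + 1) a (chC Q c' W k a) = eC N T S (rst Q k c') W k := by
  have e := bsum_two (a := a) hk T S fun n m => (XW (rst Q k c') W k a n m).trace
  have e2 := sum_tr_QW ha hk.le T S (rst Q k c') fun m x => W x k m
  unfold chC
  rw [e]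
  exact e2

/-- plane sum of the cost of the moves -/
theorem bsum_qAC {N a k : ℕ} (ha : a ≤ N) (hk : k < N) (T S : ℤ) (b : ℤ → ℤ → κ → ℝ)
    (W M Nm : ℤ → ℕ → ℤ → Matrix κ κ ℝ) :
    bsum N T S (k + 1) a (qAC b W M Nm k a) = 2 * cAC N T S b W M Nm k := by
  have e1 : ∀ m ∈ iv (N - (k + 1)) S, ∑ n' ∈ iv (N - a) T, qAC b W M Nm k a n' m
      = ((2 : ℝ) ^ a * 2 ^ k)⁻¹ * ∑ y ∈ iv (k + 1) m, ∑ x ∈ iv N T,
      (b x y ⬝ᵥ (M x (k + 1) (ix (k + 1) y) * (W x (k + 1) (ix (k + 1) y))⁻¹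
        * M x (k + 1) (ix (k + 1) y)) *ᵥ b x y
      + (1 / 2) * (b x y ⬝ᵥ (dW W x k (ix k y) * (W x k (ix k y))⁻¹ * dW W x k (ix k y)) *ᵥ b x y)
      + (1 / 2) * (b x y ⬝ᵥ Nm x (k + 1) (ix (k + 1) y) *ᵥ b x y)) := by
    intro m _
    unfold qAC
    rw [← Finset.mul_sum]
    congr 1
    rw [H258.sum_sub ha T fun _ x => ∑ y ∈ iv (k + 1) m,
      (b x y ⬝ᵥ (M x (k + 1) m * (W x (k + 1) m)⁻¹ * M x (k + 1) m) *ᵥ b x y
      + (1 / 2) * (b x y ⬝ᵥ (dW W x k (ix k y) * (W x k (ix k y))⁻¹ * dW W x k (ix k y)) *ᵥ b x y)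
      + (1 / 2) * (b x y ⬝ᵥ Nm x (k + 1) m *ᵥ b x y)), Finset.sum_comm]
    refine Finset.sum_congr rfl fun y hy => Finset.sum_congr rfl fun x _ => ?_
    rw [mem_iv.1 hy]
  unfold bsum
  rw [Finset.sum_congr rfl e1, ← Finset.mul_sum, H258.sum_sub (show k + 1 ≤ N from hk) S
    fun _ y => ∑ x ∈ iv N T,
      (b x y ⬝ᵥ (M x (k + 1) (ix (k + 1) y) * (W x (k + 1) (ix (k + 1) y))⁻¹
        * M x (k + 1) (ix (k + 1) y)) *ᵥ b x y
      + (1 / 2) * (b x y ⬝ᵥ (dW W x k (ix k y) * (W x k (ix k y))⁻¹ * dW W x k (ix k y)) *ᵥ b x y)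
      + (1 / 2) * (b x y ⬝ᵥ Nm x (k + 1) (ix (k + 1) y) *ᵥ b x y)), Finset.sum_comm, cAC,
    ← mul_assoc]
  congr 1
  rw [pow_succ 2 k]
  field_simp

theorem ow_eq {μ : ℝ} {ι : Type*} [Fintype ι] [DecidableEq ι] {j : ℕ} {s : ℝ}
    (e : s = (μ / 4 ^ j)⁻¹) (X : Matrix (ι ⊕ ι) (ι ⊕ ι) ℝ) :
    ow s X = (μ / 4 ^ j)⁻¹
      * (phi ((μ / 4 ^ j) • X) * (rad ι * phi ((μ / 4 ^ j) • X) * rad ι)).trace := by
  rw [ow, e, inv_inv]

theorem ow_nonneg {ι : Type*} [Fintype ι] [DecidableEq ι] {s : ℝ} (hs : 0 < s)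
    {X : Matrix (ι ⊕ ι) (ι ⊕ ι) ℝ} (hX : X.PosSemidef) : 0 ≤ ow s X := by
  have h := P075.phi_psd (hX.smul (inv_pos.2 hs).le)
  exact mul_nonneg hs.le (P075.trace_mul_nonneg h (P075.psd_conj_symm h P075.rad_symm))

/-- one level of the own defect is a part of all levels -/
theorem ow_le_SC {μ : ℝ} (hμ : 0 < μ) {ι : Type*} [Fintype ι] [DecidableEq ι] {j J : ℕ}
    (hj : j ≤ J) {s : ℝ} (e : s = (μ / 4 ^ j)⁻¹) {X : Matrix (ι ⊕ ι) (ι ⊕ ι) ℝ}
    (hX : X.PosSemidef) : ow s X ≤ SC μ J (rad ι) X := by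
  rw [ow_eq e]
  unfold SC
  have hj' : j ∈ range (J + 1) := mem_range.2 (by omega)
  refine Finset.single_le_sum (f := fun j => (μ / 4 ^ j)⁻¹
    * (phi ((μ / 4 ^ j) • X) * (rad ι * phi ((μ / 4 ^ j) • X) * rad ι)).trace)
    (fun i _ => ?_) hj'
  have hi : (0 : ℝ) < μ / 4 ^ i := by positivity
  have h := P075.phi_psd (hX.smul hi.le)
  exact mul_nonneg (inv_pos.2 hi).le
    (P075.trace_mul_nonneg h (P075.psd_conj_symm h P075.rad_symm))

theorem chA_nonneg (P : ℤ → ℤ → Prop) (A' : ℤ → ℤ → ℝ) (k a : ℕ) (n m : ℤ) :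
    0 ≤ chA P A' k a n m :=
  mul_nonneg (by norm_num) (add_nonneg (PA_psd _ k a n _).trace_nonneg
    (PA_psd _ k a n _).trace_nonneg)

theorem chC_nonneg {N : ℕ} {W Nn M Nm : ℤ → ℕ → ℤ → Matrix κ κ ℝ} (h : Wf N W Nn M Nm)
    (Q : ℤ → ℤ → Prop) (c' : ℤ → ℤ → κ → ℝ) (k a : ℕ) (n m : ℤ) :
    0 ≤ chC Q c' W k a n m :=
  mul_nonneg (by norm_num) (add_nonneg (XW_psd h _ k a n _).trace_nonneg
    (XW_psd h _ k a n _).trace_nonneg)

end sums

end

end Vale.Agent.P141.H389
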